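import Mathlib

/-! Auxiliary lemmas: metrics from constraints, finite quotients of free groups,
the forest inequality. -/

namespace Vale.Agent.P090

open Classical

/-- The largest metric obeying a family of upper constraints. -/
theorem exists_metric (M : Type) (W : M → M → ℝ → Prop) (h1 : ∀ x y w, W x y w → 1 ≤ w)
    (hall : ∀ x y, ∃ w, W x y w) :
    ∃ m : MetricSpace M, (∀ x y, x ≠ y → 1 ≤ @dist M m.toDist x y) ∧
      (∀ x y w, W x y w → @dist M m.toDist x y ≤ w) ∧
      ∀ (f : M → ℝ) (L : ℝ), 0 < L → (∀ x y w, W x y w → |f x - f y| ≤ L * w) →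
        ∀ x y, |f x - f y| ≤ L * @dist M m.toDist x y := by
  let Adm : (M → ℝ) → Prop := fun f => ∀ x y w, W x y w → |f x - f y| ≤ w
  let S : M → M → Set ℝ := fun x y => {t | ∃ f, Adm f ∧ t = |f x - f y|}
  have hne : ∀ x y, (S x y).Nonempty := fun x y =>
    ⟨0, fun _ => 0, fun a b w h => by simpa using le_trans zero_le_one (h1 a b w h), by simp⟩
  have hbd : ∀ x y w, W x y w → ∀ t ∈ S x y, t ≤ w := by
    rintro x y w hw t ⟨f, hf, rfl⟩
    exact hf x y w hw
  have hb : ∀ x y, BddAbove (S x y) := fun x y => by
    obtain ⟨w, hw⟩ := hall x y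
    exact ⟨w, hbd x y w hw⟩
  have hle : ∀ f, Adm f → ∀ x y, |f x - f y| ≤ sSup (S x y) := fun f hf x y =>
    le_csSup (hb x y) ⟨f, hf, rfl⟩
  have hone : ∀ x y, x ≠ y → 1 ≤ sSup (S x y) := by
    intro x y hxy
    have := hle (fun z => if z = x then 1 else 0) (fun a b w h => by
      have := h1 a b w h
      by_cases ha : a = x <;> by_cases hb : b = x <;> simp [ha, hb] <;> linarith) x y
    simpa [hxy.symm] using this
  let m : MetricSpace M :=
    { dist := fun x y => sSup (S x y)
      dist_self := fun x => le_antisymm (csSup_le (hne x x) (by rintro t ⟨f, -, rfl⟩; simp))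
        (by simpa using hle (fun _ => 0) (fun a b w h => by
          simpa using le_trans zero_le_one (h1 a b w h)) x x)
      dist_comm := fun x y => by
        have : S x y = S y x := by
          ext t; simp only [S, Set.mem_ofPred_eq, abs_sub_comm]
        simp only [this]
      dist_triangle := fun x y z => csSup_le (hne x z) (by
        rintro t ⟨f, hf, rfl⟩
        exact (abs_sub_le _ (f y) _).trans (add_le_add (hle f hf x y) (hle f hf y z)))
      eq_of_dist_eq_zero := fun {x y} h => by
        by_contra hxy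
        have := hone x y hxy
        change sSup (S x y) = 0 at h
        linarith }
  refine ⟨m, hone, fun x y w hw => csSup_le (hne x y) (hbd x y w hw), fun f L hL hf x y => ?_⟩
  have := hle (fun z => f z / L) (fun a b w h => by
    rw [← sub_div, abs_div, abs_of_pos hL, div_le_iff₀ hL, mul_comm]
    exact hf a b w h) x y
  rw [← sub_div, abs_div, abs_of_pos hL, div_le_iff₀ hL, mul_comm] at this
  exact this

/-- The ball of radius `ρ` in a free group. -/
abbrev Ball (S : Type) [DecidableEq S] (ρ : ℕ) : Type := {w : FreeGroup S // w.norm ≤ ρ}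

instance (S : Type) [DecidableEq S] [Finite S] (ρ : ℕ) : Finite (Ball S ρ) := by
  have h : ({l : List (S × Bool) | l.length ≤ ρ}).Finite := List.finite_length_le _ _
  have h2 : ({w : FreeGroup S | w.norm ≤ ρ}).Finite := by
    refine (h.image FreeGroup.mk).subset fun w hw => ⟨w.toWord, hw, FreeGroup.mk_toWord⟩
  exact h2.to_subtype

theorem exists_quot (S : Type) [DecidableEq S] [Finite S] (ρ : ℕ) :
    ∃ π : FreeGroup S →* Equiv.Perm (Ball S ρ),
      ∀ w w' : FreeGroup S, w.norm ≤ ρ → w'.norm ≤ ρ → π w = π w' → w = w' := by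
  have hs : ∀ s : S, ∃ σ : Equiv.Perm (Ball S ρ), ∀ (w : Ball S ρ)
      (h : (FreeGroup.of s * w.1).norm ≤ ρ), σ w = ⟨FreeGroup.of s * w.1, h⟩ := by
    intro s
    obtain ⟨σ, hσ⟩ := Equiv.Perm.exists_extending_pair
      (α := {w : Ball S ρ // (FreeGroup.of s * w.1).norm ≤ ρ}) (β := Ball S ρ)
      (f := fun w => w.1) (g := fun w => ⟨FreeGroup.of s * w.1.1, w.2⟩)
      Subtype.val_injective (fun a b h => by
        apply Subtype.ext; apply Subtype.ext
        simpa using h)
    exact ⟨σ, fun w h => hσ ⟨w, h⟩⟩
  choose σ hσ using hs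
  let o : Ball S ρ := ⟨1, by simp⟩
  have key : ∀ l : List (S × Bool), l.length ≤ ρ →
      ((FreeGroup.lift σ (FreeGroup.mk l)) o).1 = FreeGroup.mk l := by
    intro l
    induction l with
    | nil => intro _; rw [← FreeGroup.one_eq_mk]; simp [o]
    | cons a l ih =>
      intro hl
      have hl' : l.length ≤ ρ := by simp at hl; omega
      have hn : (FreeGroup.mk (a :: l)).norm ≤ ρ := FreeGroup.norm_mk_le.trans hl
      have hmul : FreeGroup.mk (a :: l) = FreeGroup.mk [a] * FreeGroup.mk l := by
        rw [FreeGroup.mul_mk]; rfl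
      have hn' : (FreeGroup.mk l).norm ≤ ρ := FreeGroup.norm_mk_le.trans hl'
      have ih' : (FreeGroup.lift σ (FreeGroup.mk l)) o = ⟨FreeGroup.mk l, hn'⟩ :=
        Subtype.ext (ih hl')
      rw [hmul, map_mul, Equiv.Perm.mul_apply, ih']
      obtain ⟨s, b⟩ := a
      cases b
      · have e1 : FreeGroup.mk [(s, false)] = (FreeGroup.of s)⁻¹ := rfl
        rw [hmul, e1] at hn
        rw [e1, map_inv, FreeGroup.lift_apply_of]
        have := hσ s ⟨_, hn⟩ (by simpa using hn')
        have h3 : (σ s)⁻¹ ⟨FreeGroup.mk l, hn'⟩ = ⟨_, hn⟩ := by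
          rw [Equiv.Perm.inv_eq_iff_eq, this]
          apply Subtype.ext
          simp
        rw [h3]
      · have e1 : FreeGroup.mk [(s, true)] = FreeGroup.of s := rfl
        rw [hmul, e1] at hn
        rw [e1, FreeGroup.lift_apply_of, hσ s ⟨_, hn'⟩ hn]
  refine ⟨FreeGroup.lift σ, fun w w' hw hw' h => ?_⟩
  have h1 := key w.toWord hw
  have h2 := key w'.toWord hw'
  rw [FreeGroup.mk_toWord] at h1 h2
  rw [← h1, ← h2, h]

/-- The forest inequality: if every nonempty subset of `P₀` has a leaf, the sum over oriented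
edges of the minimum of the end values is at most twice the total mass. -/
theorem forest_ineq {X D : Type} [DecidableEq X] [Fintype D] (γ : D → X → X) (inv : D → D)
    (hinv : ∀ d x, γ (inv d) (γ d x) = x) (hinj : Function.Injective inv) (P₀ : Finset X)
    (hleaf : ∀ P ⊆ P₀, P.Nonempty → ∃ p ∈ P, ∀ d d', γ d p ∈ P → γ d' p ∈ P → d = d')
    (u : X → ℝ) (hu : ∀ x, 0 ≤ u x) :
    ∀ P ⊆ P₀, ∑ p ∈ P, ∑ d, (if γ d p ∈ P then min (u p) (u (γ d p)) else 0)
      ≤ 2 * ∑ p ∈ P, u p := by
  intro P
  induction P using Finset.strongInduction with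
  | H P ih =>
    intro hP
    rcases P.eq_empty_or_nonempty with rfl | hne
    · simp
    obtain ⟨p, hp, hl⟩ := hleaf P hP hne
    have ih' := ih (P.erase p) (Finset.erase_ssubset hp) ((Finset.erase_subset _ _).trans hP)
    rw [← Finset.add_sum_erase _ _ hp, ← Finset.add_sum_erase _ u hp]
    have hsub : ∀ (c : D → Prop), (∀ d d', c d → c d' → d = d') →
        ∑ d, (if c d then u p else 0) ≤ u p := by
      intro c hc
      by_cases h : ∃ d, c d
      · obtain ⟨d, hd⟩ := h
        rw [Finset.sum_eq_single d]
        · simp [hd]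
        · intro d' _ hd'
          rw [if_neg fun h' => hd' (hc d' d h' hd)]
        · simp
      · push Not at h
        simp [h, hu p]
    have h1 : ∑ d, (if γ d p ∈ P then min (u p) (u (γ d p)) else 0) ≤ u p := by
      refine le_trans (Finset.sum_le_sum fun d _ => ?_) (hsub (fun d => γ d p ∈ P) hl)
      split_ifs
      · exact min_le_left _ _
      · exact le_rfl
    have h2 : ∑ q ∈ P.erase p, ∑ d, (if γ d q ∈ P then min (u q) (u (γ d q)) else 0)
        ≤ ∑ q ∈ P.erase p, ∑ d, (if γ d q ∈ P.erase p then min (u q) (u (γ d q)) else 0)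
          + ∑ q ∈ P.erase p, ∑ d, (if γ d q = p then u p else 0) := by
      rw [← Finset.sum_add_distrib]
      refine Finset.sum_le_sum fun q _ => ?_
      rw [← Finset.sum_add_distrib]
      refine Finset.sum_le_sum fun d _ => ?_
      by_cases h : γ d q = p
      · simp [h, hp]
      · simp [h]
    have h3 : ∑ q ∈ P.erase p, ∑ d, (if γ d q = p then u p else 0) ≤ u p := by
      rw [Finset.sum_comm]
      refine le_trans (Finset.sum_le_sum fun d _ => ?_)
        (hsub (fun d => γ (inv d) p ∈ P) fun d d' h h' => hinj (hl _ _ h h'))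
      have hq : ∀ q, γ d q = p → q = γ (inv d) p := fun q h => by rw [← h, hinv]
      split_ifs with h
      · calc ∑ q ∈ P.erase p, (if γ d q = p then u p else 0)
            ≤ ∑ q ∈ P.erase p, (if q = γ (inv d) p then u p else 0) := by
              refine Finset.sum_le_sum fun q _ => ?_
              by_cases h' : γ d q = p
              · rw [if_pos h', if_pos (hq q h')]
              · rw [if_neg h']
                split_ifs
                · exact hu p
                · exact le_rfl
          _ ≤ u p := by
              rw [Finset.sum_ite_eq']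
              split_ifs
              · exact le_rfl
              · exact hu p
      · refine le_of_eq (Finset.sum_eq_zero fun q hq' => if_neg fun h' => h ?_)
        rw [← hq q h']
        exact Finset.mem_of_mem_erase hq'
    linarith

end Vale.Agent.P090
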