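import Vale.Agent.P090.Tree

/-! Existence of finite coloured graphs whose long walks do not match finitely many patterns. -/

namespace Vale.Agent.P090

open Classical

/-- Colours. -/
abbrev Col : Type := Fin 8

variable {V : Type}

/-- The move in a signed direction. -/
def dact (α : Bool → Equiv.Perm V) (δ : Bool × Bool) : Equiv.Perm V :=
  if δ.2 then α δ.1 else (α δ.1)⁻¹

theorem dact_linv (α : Bool → Equiv.Perm V) (δ : Bool × Bool) (v : V) :
    dact α (linv δ) (dact α δ v) = v := by
  obtain ⟨d, b⟩ := δ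
  cases b <;> simp [dact, linv]

/-- The end point of the walk along a list of signed directions. -/
def walk (α : Bool → Equiv.Perm V) (v : V) (l : List (Bool × Bool)) : V :=
  l.foldl (fun v δ => dact α δ v) v

@[simp] theorem walk_nil (α : Bool → Equiv.Perm V) (v : V) : walk α v [] = v := rfl

@[simp] theorem walk_cons (α : Bool → Equiv.Perm V) (v : V) (δ : Bool × Bool)
    (l : List (Bool × Bool)) : walk α v (δ :: l) = walk α (dact α δ v) l := rfl

theorem card_pattern [Fintype V] [DecidableEq V] {ℓ : ℕ} (f : Fin ℓ → V) (hf : Function.Injective f)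
    (g : Fin ℓ → Col) :
    (Finset.univ.filter fun c : V → Col => ∀ j, c (f j) = g j).card * 8 ^ ℓ
      ≤ 8 ^ Fintype.card V := by
  have h := Fintype.card_le_of_injective
    (fun p : {c : V → Col // ∀ j, c (f j) = g j} × (Fin ℓ → Col) =>
      (Function.extend f p.2 p.1.1 : V → Col)) (by
      rintro ⟨⟨c, hc⟩, h⟩ ⟨⟨c', hc'⟩, h'⟩ e
      have e1 : h = h' := by
        funext j
        have := congrFun e (f j)
        simpa [hf.extend_apply] using this
      have e2 : c = c' := by
        funext v
        by_cases hv : ∃ j, f j = v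
        · obtain ⟨j, rfl⟩ := hv
          rw [hc, hc']
        · have := congrFun e v
          simpa [Function.extend_apply' _ _ _ hv] using this
      subst e1 e2
      rfl)
  rw [Fintype.card_prod, Fintype.card_subtype] at h
  simpa using h

theorem exists_free_action (ℓ : ℕ) : ∃ (n : ℕ) (α : Bool → Equiv.Perm (Fin n)), 0 < n ∧
    ∀ (v : Fin n) (l : List (Bool × Bool)), FreeGroup.IsReduced l → l.length = ℓ →
      Function.Injective fun j : Fin ℓ => walk α v (l.take j) := by
  obtain ⟨π, hπ⟩ := exists_quot Bool ℓ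
  let _ : Fintype (Equiv.Perm (Ball Bool ℓ)) := Fintype.ofFinite _
  let e := Fintype.equivFin (Equiv.Perm (Ball Bool ℓ))
  let α : Bool → Equiv.Perm (Fin (Fintype.card (Equiv.Perm (Ball Bool ℓ)))) := fun d =>
    e.permCongr (Equiv.mulRight (π (FreeGroup.of d)))
  have h1 : ∀ δ g, dact α δ (e g) = e (g * π (FreeGroup.mk [δ])) := by
    rintro ⟨d, b⟩ g
    cases b
    · have e1 : FreeGroup.mk [(d, false)] = (FreeGroup.of d)⁻¹ := rfl
      simp only [dact, e1, map_inv, Bool.false_eq_true, if_false]
      rw [Equiv.Perm.inv_eq_iff_eq]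
      simp [α]
    · have e1 : FreeGroup.mk [(d, true)] = FreeGroup.of d := rfl
      simp [dact, e1, α]
  have h2 : ∀ l g, walk α (e g) l = e (g * π (FreeGroup.mk l)) := by
    intro l
    induction l with
    | nil => intro g; rw [← FreeGroup.one_eq_mk]; simp
    | cons a l ih =>
      intro g
      have hmul : FreeGroup.mk (a :: l) = FreeGroup.mk [a] * FreeGroup.mk l := by
        rw [FreeGroup.mul_mk]; rfl
      rw [walk_cons, h1, ih, hmul, π.map_mul, mul_assoc]
  refine ⟨_, α, Fintype.card_pos, fun v l hl hlen j j' h => ?_⟩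
  obtain ⟨g, rfl⟩ := e.surjective v
  simp only [h2] at h
  have h3 := mul_left_cancel (e.injective h)
  have hn : ∀ i : Fin ℓ, (FreeGroup.mk (l.take i)).norm = i := by
    intro i
    have hr : FreeGroup.IsReduced (l.take i) := List.IsChain.take hl i
    rw [FreeGroup.norm, FreeGroup.toWord_mk, hr.reduce_eq, List.length_take, hlen]
    exact min_eq_left i.2.le
  have h4 := hπ _ _ (by rw [hn]; exact j.2.le) (by rw [hn]; exact j'.2.le) h3
  apply Fin.ext
  rw [← hn j, ← hn j', h4]

theorem exists_coloring (X : Type) [Fintype X] (γ : X → List (Bool × Bool) → Col) (N : ℕ) :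
    ∃ (n ℓ : ℕ) (α : Bool → Equiv.Perm (Fin n)) (c : Fin n → Col), 0 < n ∧
      N * (Finset.univ.filter fun v : Fin n => ∃ (x : X) (l : List (Bool × Bool)),
        FreeGroup.IsReduced l ∧ l.length = ℓ ∧
          ∀ j < ℓ, c (walk α v (l.take j)) = γ x (l.take j)).card ≤ n := by
  set ℓ := N * Fintype.card X with hℓ
  obtain ⟨n, α, hn, hα⟩ := exists_free_action ℓ
  let Bad : (Fin n → Col) → Fin n → Prop := fun c v => ∃ (x : X) (l : List (Bool × Bool)),
    FreeGroup.IsReduced l ∧ l.length = ℓ ∧ ∀ j < ℓ, c (walk α v (l.take j)) = γ x (l.take j)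
  have hv : ∀ v, (Finset.univ.filter fun c => Bad c v).card * 8 ^ ℓ
      ≤ Fintype.card X * 4 ^ ℓ * 8 ^ n := by
    intro v
    let B : X × (Fin ℓ → Bool × Bool) → Finset (Fin n → Col) := fun p =>
      Finset.univ.filter fun c => FreeGroup.IsReduced (List.ofFn p.2) ∧
        ∀ j : Fin ℓ, c (walk α v ((List.ofFn p.2).take j)) = γ p.1 ((List.ofFn p.2).take j)
    have hB : ∀ p, (B p).card * 8 ^ ℓ ≤ 8 ^ n := by
      intro p
      by_cases hr : FreeGroup.IsReduced (List.ofFn p.2)
      · have := card_pattern _ (hα v _ hr (by simp)) fun j => γ p.1 ((List.ofFn p.2).take j)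
        simpa [B, hr] using this
      · simp [B, hr]
    have hsub : (Finset.univ.filter fun c => Bad c v) ⊆ Finset.univ.biUnion B := by
      intro c hc
      obtain ⟨x, l, hr, hl, hc⟩ := (Finset.mem_filter.1 hc).2
      have e : List.ofFn (fun j : Fin ℓ => l.get (j.cast hl.symm)) = l := by
        apply List.ext_get
        · simp [hl]
        · intro i h1 h2
          simp
      refine Finset.mem_biUnion.2 ⟨(x, fun j => l.get (j.cast hl.symm)), Finset.mem_univ _, ?_⟩
      simp only [B, Finset.mem_filter, Finset.mem_univ, true_and, e]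
      exact ⟨hr, fun j => hc j j.2⟩
    calc (Finset.univ.filter fun c => Bad c v).card * 8 ^ ℓ
        ≤ (∑ p, (B p).card) * 8 ^ ℓ :=
          Nat.mul_le_mul_right _ ((Finset.card_le_card hsub).trans Finset.card_biUnion_le)
      _ = ∑ p, (B p).card * 8 ^ ℓ := Finset.sum_mul _ _ _
      _ ≤ ∑ _p : X × (Fin ℓ → Bool × Bool), 8 ^ n := Finset.sum_le_sum fun p _ => hB p
      _ = Fintype.card X * 4 ^ ℓ * 8 ^ n := by simp
  have hsum : ∑ c : Fin n → Col, N * (Finset.univ.filter fun v => Bad c v).card
      ≤ ∑ _c : Fin n → Col, n := by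
    have e : ∑ c : Fin n → Col, (Finset.univ.filter fun v => Bad c v).card
        = ∑ v : Fin n, (Finset.univ.filter fun c => Bad c v).card := by
      simp only [Finset.card_filter]
      exact Finset.sum_comm
    rw [← Finset.mul_sum, e]
    have h8 : 0 < 8 ^ ℓ := by positivity
    refine Nat.le_of_mul_le_mul_right ?_ h8
    have h2 : ℓ ≤ 2 ^ ℓ := Nat.lt_two_pow_self.le
    calc (N * ∑ v : Fin n, (Finset.univ.filter fun c => Bad c v).card) * 8 ^ ℓ
        = N * ∑ v : Fin n, (Finset.univ.filter fun c => Bad c v).card * 8 ^ ℓ := by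
          rw [mul_assoc, Finset.sum_mul]
      _ ≤ N * ∑ _v : Fin n, Fintype.card X * 4 ^ ℓ * 8 ^ n :=
          Nat.mul_le_mul_left _ (Finset.sum_le_sum fun v _ => hv v)
      _ = ℓ * 4 ^ ℓ * (8 ^ n * n) := by
          rw [Finset.sum_const, Finset.card_univ, Fintype.card_fin, smul_eq_mul]
          conv_rhs => lhs; lhs; rw [hℓ]
          ring
      _ ≤ 2 ^ ℓ * 4 ^ ℓ * (8 ^ n * n) := by gcongr
      _ = (∑ _c : Fin n → Col, n) * 8 ^ ℓ := by
          rw [← mul_pow]
          simp [mul_comm]
  obtain ⟨c, -, hc⟩ := Finset.exists_le_of_sum_le Finset.univ_nonempty hsum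
  exact ⟨n, ℓ, α, c, hn, hc⟩

end Vale.Agent.P090
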