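import Vale.Agent.P090.Setup

/-! The combinatorial core of the counterexample. -/

namespace Vale.Agent.P090

open Classical

variable {U : Type} (α : Bool → Equiv.Perm U) (c : U → Col)
variable {Q : Type} [Group Q] (π : FreeGroup Gen →* Q)

/-- The inclusion of the covering graph. -/
def up (w : U × Q) : Option U × Q := (some w.1, w.2)

/-- Admissible test functions. -/
def Adm (r L : ℝ) (f : Option U × Q → ℝ) : Prop :=
  (∀ δ w, |f (up (mvW α c π δ w)) - f (up w)| ≤ L) ∧ ∀ z, |f z| ≤ L * r / 2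

/-- The position of `z` seen from `w`. -/
noncomputable def tau (ρ : ℕ) (w : U × Q) (z : Option U × Q) : (pact α c).Y :=
  (pact α c).act (sw π ρ (z.2 * w.2⁻¹))⁻¹ ((pact α c).emb z.1)

/-- The test functions. -/
noncomputable def Fn (ρ : ℕ) (w : U × Q) (σ : (pact α c).Y → ℝ) (z : Option U × Q) : ℝ :=
  th π ρ (z.2 * w.2⁻¹) * σ (tau α c π ρ w z)

variable {π} {ρ : ℕ}

theorem norm_mk_single (σ : Gen × Bool) : (FreeGroup.mk [σ]).norm ≤ 1 := FreeGroup.norm_mk_le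

theorem Fn_move (hπ : ∀ w w' : FreeGroup Gen, w.norm ≤ ρ → w'.norm ≤ ρ → π w = π w' → w = w')
    (hρ : 0 < ρ) (w : U × Q) (σ : (pact α c).Y → ℝ) (hσ : ∀ y, |σ y| ≤ 1) (δ : Bool × Bool)
    (z : U × Q) :
    |Fn α c π ρ w σ (up (mvW α c π δ z)) - Fn α c π ρ w σ (up z)| ≤ 1 / ρ := by
  refine adj hπ hρ (fun s => σ ((pact α c).act s⁻¹ ((pact α c).emb (some z.1))))
    (fun s => σ ((pact α c).act s⁻¹ ((pact α c).emb (some (dact α δ z.1))))) (fun _ => hσ _)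
    (FreeGroup.mk [letter α c z.1 δ]) 1 (by simpa using norm_mk_single _) (fun s => ?_) _ _ ?_
  · rw [← act_emb, ← Equiv.Perm.mul_apply, ← map_mul]
    congr 3
    group
  · simp [up, mvW, mul_assoc]

theorem Fn_abs (hπ : ∀ w w' : FreeGroup Gen, w.norm ≤ ρ → w'.norm ≤ ρ → π w = π w' → w = w')
    (hρ : 0 < ρ) (w : U × Q) (σ : (pact α c).Y → ℝ) (hσ : ∀ y, |σ y| ≤ 1) (z : Option U × Q) :
    |Fn α c π ρ w σ z| ≤ 1 := by
  rw [Fn, abs_mul, abs_of_nonneg (th_mem hπ hρ _).1]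
  exact mul_le_one₀ (th_mem hπ hρ _).2 (abs_nonneg _) (hσ _)

theorem Fn_diff (hπ : ∀ w w' : FreeGroup Gen, w.norm ≤ ρ → w'.norm ≤ ρ → π w = π w' → w = w')
    (hρ : 0 < ρ) (w : U × Q) (σ : (pact α c).Y → ℝ) (hσ : ∀ y, |σ y| ≤ 1) (δ : Bool × Bool)
    (z : Option U × Q) :
    |Fn α c π ρ (mvW α c π δ w)
        (fun y => σ (((pact α c).act (FreeGroup.mk [letter α c w.1 δ]))⁻¹ y)) z
      - Fn α c π ρ w σ z| ≤ 1 / ρ := by
  refine adj hπ hρ (fun s => σ ((pact α c).act s⁻¹ ((pact α c).emb z.1)))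
    (fun s => σ (((pact α c).act (FreeGroup.mk [letter α c w.1 δ]))⁻¹
      ((pact α c).act s⁻¹ ((pact α c).emb z.1)))) (fun _ => hσ _)
    1 (FreeGroup.mk [letter α c w.1 δ])⁻¹
    (by rw [FreeGroup.norm_inv_eq]; simpa using norm_mk_single _) (fun s => ?_) _ _ ?_
  · rw [← Equiv.Perm.mul_apply, ← map_inv, ← map_mul]
    congr 3
    group
  · simp only [mvW, map_one, map_inv]
    group

theorem count_contra {X Y : Type} [DecidableEq X] (k : ℝ) (hk : 1 ≤ k) (mv : Bool × Bool → X → X)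
    (hmv : ∀ δ, Function.Injective (mv δ)) (st : Bool × Bool → X → Y → Y) (W : Finset X)
    (bad : X → Prop) (Y₀ : Finset Y) (t : X → Y → ℝ) (hW : ∀ δ, ∀ w ∈ W, mv δ w ∈ W)
    (ht0 : ∀ w ∈ W, ∀ y ∉ Y₀, t w y = 0) (hT1 : ∀ w, ∑ y ∈ Y₀, |t w y| ≤ 4 * k + 1)
    (hT2 : ∀ w ∈ W, 1 / 2 ≤ ∑ y ∈ Y₀, |t w y|)
    (hD : ∀ δ w, ∑ y ∈ Y₀, |t (mv δ w) (st δ w y) - t w y| ≤ 1 / 8)
    (hfor : ∑ p ∈ (W.filter fun w => ¬ bad w) ×ˢ Y₀, ∑ δ : Bool × Bool,
      (if (mv δ p.1, st δ p.1 p.2) ∈ (W.filter fun w => ¬ bad w) ×ˢ Y₀ then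
        min |t p.1 p.2| |t (mv δ p.1) (st δ p.1 p.2)| else 0)
      ≤ 2 * ∑ p ∈ (W.filter fun w => ¬ bad w) ×ˢ Y₀, |t p.1 p.2|)
    (h6 : 64 * k * (W.filter bad).card ≤ W.card) (h7 : (0 : ℝ) < W.card) : False := by
  set G := W.filter fun w => ¬ bad w with hG
  set B := W.filter bad with hB
  set T : X → ℝ := fun w => ∑ y ∈ Y₀, |t w y| with hT
  have hGW : ∀ w ∈ G, w ∈ W := fun w hw => (Finset.mem_filter.1 hw).1
  rw [Finset.sum_product, Finset.sum_product] at hfor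
  have hlow : ∀ w ∈ G, ∑ δ : Bool × Bool,
      (T w - 1 / 8 - if mv δ w ∈ B then (4 * k + 1 : ℝ) else 0) ≤
      ∑ y ∈ Y₀, ∑ δ : Bool × Bool, (if (mv δ w, st δ w y) ∈ G ×ˢ Y₀ then
        min |t w y| |t (mv δ w) (st δ w y)| else 0) := by
    intro w hw
    rw [Finset.sum_comm]
    refine Finset.sum_le_sum fun δ _ => ?_
    have hw' := hW δ w (hGW w hw)
    by_cases hb : mv δ w ∈ B
    · rw [if_pos hb]
      refine le_trans (b := 0) (by linarith [hT1 w]) (Finset.sum_nonneg fun y _ => ?_)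
      split_ifs
      · exact le_min (abs_nonneg _) (abs_nonneg _)
      · exact le_rfl
    · rw [if_neg hb, sub_zero]
      have hg : mv δ w ∈ G :=
        Finset.mem_filter.2 ⟨hw', fun h => hb (Finset.mem_filter.2 ⟨hw', h⟩)⟩
      refine le_trans (sub_le_sub_left (hD δ w) _) ?_
      simp only [T]
      rw [← Finset.sum_sub_distrib]
      refine Finset.sum_le_sum fun y _ => ?_
      have tri := abs_sub_abs_le_abs_sub (t w y) (t (mv δ w) (st δ w y))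
      rw [abs_sub_comm] at tri
      split_ifs with h
      · refine le_min (sub_le_self _ (abs_nonneg _)) ?_
        linarith
      · have h0 : t (mv δ w) (st δ w y) = 0 :=
          ht0 _ hw' _ fun h' => h (Finset.mem_product.2 ⟨hg, h'⟩)
        rw [h0] at tri ⊢
        simp
  have hcount : ∀ δ : Bool × Bool,
      ∑ w ∈ G, (if mv δ w ∈ B then (4 * k + 1 : ℝ) else 0) ≤ B.card * (4 * k + 1) := by
    intro δ
    rw [← Finset.sum_filter, Finset.sum_const, nsmul_eq_mul]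
    have : (G.filter fun w => mv δ w ∈ B).card ≤ B.card :=
      Finset.card_le_card_of_injOn (mv δ) (fun w hw => (Finset.mem_filter.1 hw).2)
        (hmv δ).injOn
    exact mul_le_mul_of_nonneg_right (by exact_mod_cast this) (by linarith)
  have h1 := (Finset.sum_le_sum hlow).trans hfor
  have h2 : ∑ w ∈ G, ∑ δ : Bool × Bool,
      (T w - 1 / 8 - if mv δ w ∈ B then (4 * k + 1 : ℝ) else 0)
      = 4 * ∑ w ∈ G, T w - G.card / 2 -
        ∑ δ : Bool × Bool, ∑ w ∈ G, (if mv δ w ∈ B then (4 * k + 1 : ℝ) else 0) := by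
    rw [Finset.sum_comm (s := Finset.univ)]
    simp only [Finset.sum_sub_distrib, Finset.sum_const, Finset.card_univ, Fintype.card_prod,
      Fintype.card_bool, nsmul_eq_mul, Finset.mul_sum]
    push_cast
    congr 1
    congr 1
    ring
  have h3 : ∑ δ : Bool × Bool, ∑ w ∈ G, (if mv δ w ∈ B then (4 * k + 1 : ℝ) else 0)
      ≤ 4 * (B.card * (4 * k + 1)) := by
    refine (Finset.sum_le_sum fun δ _ => hcount δ).trans (le_of_eq ?_)
    simp
  have h4 : (G.card : ℝ) / 2 ≤ ∑ w ∈ G, T w := by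
    refine le_trans (le_of_eq ?_) (Finset.sum_le_sum fun w hw => hT2 w (hGW w hw))
    simp; ring
  have h5 : (B.card : ℝ) + G.card = W.card := by
    exact_mod_cast Finset.card_filter_add_card_filter_not (s := W) bad
  have h8 : (0 : ℝ) ≤ B.card := by positivity
  rw [h2] at h1
  change _ ≤ 2 * ∑ w ∈ G, T w at h1
  nlinarith

/-- The signed mass carried to the point `y`. -/
noncomputable def tt (π : FreeGroup Gen →* Q) (ρ : ℕ) (E : U × Q → ((Option U × Q → ℝ) →ₗ[ℝ] ℝ))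
    (w : U × Q) (y : (pact α c).Y) : ℝ :=
  E w fun z => if tau α c π ρ w z = y then th π ρ (z.2 * w.2⁻¹) else 0

theorem sum_tt (E : U × Q → ((Option U × Q → ℝ) →ₗ[ℝ] ℝ)) (Y₀ : Finset (pact α c).Y) :
    ∀ (w : U × Q) (p : Equiv.Perm (pact α c).Y) (σ : (pact α c).Y → ℝ), (∀ y ∉ Y₀, σ y = 0) →
      ∑ y ∈ Y₀, σ y * tt α c π ρ E w (p y) = E w (Fn α c π ρ w fun y => σ (p⁻¹ y)) := by
  intro w p σ hσ
  have e : Fn α c π ρ w (fun y => σ (p⁻¹ y)) = ∑ y ∈ Y₀, σ y •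
      fun z => if tau α c π ρ w z = p y then th π ρ (z.2 * w.2⁻¹) else 0 := by
    funext z
    simp only [Finset.sum_apply, Pi.smul_apply, smul_eq_mul, Fn, mul_ite, mul_zero]
    have : ∀ y, (tau α c π ρ w z = p y) = (p⁻¹ (tau α c π ρ w z) = y) := fun y =>
      propext Equiv.Perm.inv_eq_iff_eq.symm
    simp only [this, Finset.sum_ite_eq]
    split_ifs with h
    · ring
    · rw [hσ _ h, mul_zero]
  rw [e, map_sum]
  simp only [map_smul, smul_eq_mul, tt]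

theorem exists_sign {Y : Type} (Y₀ : Finset Y) : ∀ g : Y → ℝ, ∃ σ : Y → ℝ,
    (∀ y ∉ Y₀, σ y = 0) ∧ (∀ y, |σ y| ≤ 1) ∧ ∑ y ∈ Y₀, |g y| = ∑ y ∈ Y₀, σ y * g y := by
  intro g
  refine ⟨fun y => if y ∈ Y₀ then (if 0 ≤ g y then 1 else -1) else 0, fun y hy => if_neg hy,
    fun y => by dsimp only; split_ifs <;> simp, Finset.sum_congr rfl fun y hy => ?_⟩
  dsimp only
  rw [if_pos hy]
  split_ifs with h
  · rw [abs_of_nonneg h, one_mul]
  · rw [abs_of_neg (not_le.1 h)]; ring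

theorem adm_Fn (k : ℕ) (hk : 1 ≤ k) (hρ : ρ = 4096 * k ^ 2)
    (hπ : ∀ w w' : FreeGroup Gen, w.norm ≤ ρ → w'.norm ≤ ρ → π w = π w' → w = w') :
    ∀ w σ, (∀ y, |σ y| ≤ 1) → Adm α c π (32 * k) (1 / (16 * k)) (Fn α c π ρ w σ) := by
  have hk' : (1 : ℝ) ≤ k := by exact_mod_cast hk
  have hρ0 : 0 < ρ := by rw [hρ]; positivity
  have hρ' : (ρ : ℝ) = 4096 * k ^ 2 := by rw [hρ]; push_cast; ring
  intro w σ hσ
  refine ⟨fun δ z => (Fn_move α c hπ hρ0 w σ hσ δ z).trans ?_,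
    fun z => (Fn_abs α c hπ hρ0 w σ hσ z).trans (le_of_eq ?_)⟩
  · rw [hρ']
    exact one_div_le_one_div_of_le (by positivity) (by nlinarith)
  · field_simp; ring

theorem tt_upper (k : ℕ) (hk : 1 ≤ k) (hρ : ρ = 4096 * k ^ 2)
    (hπ : ∀ w w' : FreeGroup Gen, w.norm ≤ ρ → w'.norm ≤ ρ → π w = π w' → w = w')
    (E : U × Q → ((Option U × Q → ℝ) →ₗ[ℝ] ℝ)) (Y₀ : Finset (pact α c).Y)
    (H2 : ∀ w L f, 0 < L → Adm α c π (32 * k) L f →
      |E w f - f (none, w.2)| ≤ 2 * k * (32 * k) * L) :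
    ∀ w, ∑ y ∈ Y₀, |tt α c π ρ E w y| ≤ 4 * k + 1 := by
  have hk' : (1 : ℝ) ≤ k := by exact_mod_cast hk
  have hρ0 : 0 < ρ := by rw [hρ]; positivity
  have hAdm1 := adm_Fn α c k hk hρ hπ
  have hS := sum_tt α c (π := π) (ρ := ρ) E Y₀
  intro w
  obtain ⟨σ, h1, h2, h3⟩ := exists_sign Y₀ (tt α c π ρ E w)
  have h4 := hS w 1 σ h1
  simp only [Equiv.Perm.one_apply, inv_one] at h4
  have h5 := H2 w _ _ (by positivity) (hAdm1 w σ h2)
  have h6 := Fn_abs α c hπ hρ0 w σ h2 (none, w.2)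
  have e : 2 * (k : ℝ) * (32 * k) * (1 / (16 * k)) = 4 * k := by field_simp; ring
  rw [e] at h5
  rw [h3, h4]
  have := abs_le.1 h5
  have := abs_le.1 h6
  linarith

theorem tt_diff (k : ℕ) (hk : 1 ≤ k) (hρ : ρ = 4096 * k ^ 2)
    (hπ : ∀ w w' : FreeGroup Gen, w.norm ≤ ρ → w'.norm ≤ ρ → π w = π w' → w = w')
    (E : U × Q → ((Option U × Q → ℝ) →ₗ[ℝ] ℝ)) (Y₀ : Finset (pact α c).Y)
    (H1 : ∀ δ w L f, 0 < L → Adm α c π (32 * k) L f → |E (mvW α c π δ w) f - E w f| ≤ k * L)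
    (H2 : ∀ w L f, 0 < L → Adm α c π (32 * k) L f →
      |E w f - f (none, w.2)| ≤ 2 * k * (32 * k) * L) :
    ∀ δ w, ∑ y ∈ Y₀, |tt α c π ρ E (mvW α c π δ w) ((pact α c).step (letter α c w.1 δ) y)
      - tt α c π ρ E w y| ≤ 1 / 8 := by
  have hk' : (1 : ℝ) ≤ k := by exact_mod_cast hk
  have hρ0 : 0 < ρ := by rw [hρ]; positivity
  have hρ' : (ρ : ℝ) = 4096 * k ^ 2 := by rw [hρ]; push_cast; ring
  have hAdm1 := adm_Fn α c k hk hρ hπ
  have hS := sum_tt α c (π := π) (ρ := ρ) E Y₀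
  let A := pact α c
  set t := tt α c π ρ E with ht
  intro δ w
  obtain ⟨σ, h1, h2, h3⟩ :=
    exists_sign Y₀ fun y => t (mvW α c π δ w) (A.step (letter α c w.1 δ) y) - t w y
  have h4 := hS w 1 σ h1
  simp only [Equiv.Perm.one_apply, inv_one] at h4
  have h5 := hS (mvW α c π δ w) (A.act (FreeGroup.mk [letter α c w.1 δ])) σ h1
  simp only [PAct.act_mk] at h5
  rw [h3]
  simp only [mul_sub, Finset.sum_sub_distrib]
  rw [h4, h5]
  set f := Fn α c π ρ (mvW α c π δ w)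
    fun y => σ ((A.act (FreeGroup.mk [letter α c w.1 δ]))⁻¹ y) with hf
  set f' := Fn α c π ρ w σ with hf'
  have hd : ∀ z, |f z - f' z| ≤ 1 / ρ := fun z => Fn_diff α c hπ hρ0 w σ h2 δ z
  have hρ1 : (0 : ℝ) < ρ := by exact_mod_cast hρ0
  have a1 := H1 δ w _ f (by positivity) (hAdm1 _ _ fun y => h2 _)
  have a2 := H2 w (2 / ρ) (f - f') (by positivity) ⟨fun δ z => by
    have b1 := abs_le.1 (hd (up (mvW α c π δ z)))
    have b2 := abs_le.1 (hd (up z))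
    have e : (2 : ℝ) / ρ = 1 / ρ + 1 / ρ := by ring
    simp only [Pi.sub_apply]
    rw [abs_le, e]; constructor <;> linarith, fun z => (hd z).trans (by
      have : (1 : ℝ) / ρ * 1 ≤ 1 / ρ * (32 * k) := by gcongr; linarith
      calc (1 : ℝ) / ρ = 1 / ρ * 1 := by ring
        _ ≤ 1 / ρ * (32 * k) := this
        _ = 2 / ρ * (32 * k) / 2 := by ring)⟩
  have a3 := hd (none, w.2)
  rw [map_sub, Pi.sub_apply] at a2
  have e1 : (k : ℝ) * (1 / (16 * k)) = 1 / 16 := by field_simp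
  have e2 : 2 * (k : ℝ) * (32 * k) * (2 / ρ) = 1 / 32 := by rw [hρ']; field_simp; ring
  have e3 : (1 : ℝ) / ρ ≤ 1 / 32 := by
    rw [hρ']; exact one_div_le_one_div_of_le (by norm_num) (by nlinarith)
  rw [e1] at a1
  rw [e2] at a2
  have := abs_le.1 a1
  have := abs_le.1 a2
  have := abs_le.1 a3
  linarith

theorem forest_gam (π : FreeGroup Gen →* Q) (X₀ : Finset U) (ℓ : ℕ) (W : Finset (U × Q))
    (Y₀ : Finset (pact α c).Y) (hY₀' : ∀ y ∈ Y₀, ∀ x, y.1.1 = some x → x ∈ X₀)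
    (t : U × Q → (pact α c).Y → ℝ) :
    ∑ p ∈ (W.filter fun w => ¬ Bad α c X₀ ℓ w.1) ×ˢ Y₀, ∑ δ : Bool × Bool,
      (if (mvW α c π δ p.1, (pact α c).step (letter α c p.1.1 δ) p.2)
          ∈ (W.filter fun w => ¬ Bad α c X₀ ℓ w.1) ×ˢ Y₀ then
        min |t p.1 p.2| |t (mvW α c π δ p.1) ((pact α c).step (letter α c p.1.1 δ) p.2)| else 0)
      ≤ 2 * ∑ p ∈ (W.filter fun w => ¬ Bad α c X₀ ℓ w.1) ×ˢ Y₀, |t p.1 p.2| := by
  have h := forest_ineq (gam α c π) linv (gam_linv α c π) linv_injective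
    ((W.filter fun w => ¬ Bad α c X₀ ℓ w.1) ×ˢ Y₀)
    (fun P hP hne => exists_leaf α c π X₀ ℓ P (fun p hp => by
      have := Finset.mem_product.1 (hP hp)
      exact ⟨(Finset.mem_filter.1 this.1).2, hY₀' _ this.2⟩) hne)
    (fun p => |t p.1 p.2|) (fun _ => abs_nonneg _) _ subset_rfl
  exact h

theorem core [Fintype Q] (k : ℕ) (hk : 1 ≤ k) (hρ : ρ = 4096 * k ^ 2)
    (hπ : ∀ w w' : FreeGroup Gen, w.norm ≤ ρ → w'.norm ≤ ρ → π w = π w' → w = w')
    (X₀ Γ : Finset U) (hX : ∀ δ, ∀ x ∈ X₀, dact α δ x ∈ X₀) (hΓ : ∀ δ, ∀ x ∈ Γ, dact α δ x ∈ Γ)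
    (hne : Γ.Nonempty) (ℓ : ℕ) (hbad : 64 * k * (Γ.filter (Bad α c X₀ ℓ)).card ≤ Γ.card)
    (E : U × Q → ((Option U × Q → ℝ) →ₗ[ℝ] ℝ))
    (hE : ∀ w f f', (∀ z : Option U × Q, (∀ x, z.1 = some x → x ∈ X₀) → f z = f' z) →
      E w f = E w f')
    (H1 : ∀ δ w L f, 0 < L → Adm α c π (32 * k) L f → |E (mvW α c π δ w) f - E w f| ≤ k * L)
    (H2 : ∀ w L f, 0 < L → Adm α c π (32 * k) L f →
      |E w f - f (none, w.2)| ≤ 2 * k * (32 * k) * L)
    (H3 : ∀ w, 1 / 2 ≤ E w fun z => th π ρ (z.2 * w.2⁻¹)) : False := by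
  have hk' : (1 : ℝ) ≤ k := by exact_mod_cast hk
  have hρ0 : 0 < ρ := by rw [hρ]; positivity
  have hρ' : (ρ : ℝ) = 4096 * k ^ 2 := by rw [hρ]; push_cast; ring
  let A := pact α c
  let M₀ : Finset (Option U × Q) := (Finset.insertNone X₀) ×ˢ Finset.univ
  have hM₀ : ∀ z : Option U × Q, (∀ x, z.1 = some x → x ∈ X₀) → z ∈ M₀ := by
    intro z hz
    simp only [M₀, Finset.mem_product, Finset.mem_univ, and_true, Finset.mem_insertNone]
    exact fun a ha => hz a ha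
  let W : Finset (U × Q) := Γ ×ˢ Finset.univ
  have hW : ∀ δ, ∀ w ∈ W, mvW α c π δ w ∈ W := by
    intro δ w hw
    simp only [W, Finset.mem_product, Finset.mem_univ, and_true] at hw ⊢
    exact hΓ δ _ hw
  let Y₀ : Finset A.Y := (W ×ˢ M₀).image fun p => tau α c π ρ p.1 p.2
  have hY₀ : ∀ w ∈ W, ∀ z : Option U × Q, (∀ x, z.1 = some x → x ∈ X₀) →
      tau α c π ρ w z ∈ Y₀ := fun w hw z hz =>
    Finset.mem_image.2 ⟨(w, z), Finset.mem_product.2 ⟨hw, hM₀ z hz⟩, rfl⟩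
  have hY₀' : ∀ y ∈ Y₀, ∀ x, y.1.1 = some x → x ∈ X₀ := by
    intro y hy
    obtain ⟨⟨w, z⟩, hp, rfl⟩ := Finset.mem_image.1 hy
    have hz := (Finset.mem_product.1 (Finset.mem_product.1 hp).2).1
    refine A.act_base {o | ∀ x, o = some x → x ∈ X₀} ?_ _ _ ?_
    · rintro o ho σ ⟨x', rfl, -⟩ x hx
      obtain rfl : dact α (ldir σ) x' = x := Option.some.inj hx
      exact hX _ _ (ho x' rfl)
    · exact fun x hx => Finset.mem_insertNone.1 hz x hx
  let t := tt α c π ρ E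
  have ht0 : ∀ w ∈ W, ∀ y ∉ Y₀, t w y = 0 := by
    intro w hw y hy
    have := hE w (fun z => if tau α c π ρ w z = y then th π ρ (z.2 * w.2⁻¹) else 0) 0
      fun z hz => if_neg fun h => hy (by rw [← h]; exact hY₀ w hw z hz)
    rw [map_zero] at this
    exact this
  have hS := sum_tt α c (π := π) (ρ := ρ) E Y₀
  have hT1 := tt_upper α c k hk hρ hπ E Y₀ H2
  have hD := tt_diff α c k hk hρ hπ E Y₀ H1 H2
  have hT2 : ∀ w ∈ W, 1 / 2 ≤ ∑ y ∈ Y₀, |t w y| := by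
    intro w hw
    have h4 := hS w 1 (fun y => if y ∈ Y₀ then 1 else 0) fun y hy => if_neg hy
    simp only [Equiv.Perm.one_apply, inv_one] at h4
    have h5 := hE w (Fn α c π ρ w fun y => if y ∈ Y₀ then 1 else 0)
      (fun z => th π ρ (z.2 * w.2⁻¹)) fun z hz => by
        rw [Fn, if_pos (hY₀ w hw z hz), mul_one]
    refine (H3 w).trans ?_
    rw [← h5, ← h4]
    exact Finset.sum_le_sum fun y hy => by rw [if_pos hy, one_mul]; exact le_abs_self _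
  refine count_contra k hk' (mvW α c π) (fun δ a b h => ?_)
    (fun δ w => A.step (letter α c w.1 δ)) W (fun w => Bad α c X₀ ℓ w.1) Y₀ t hW ht0 hT1 hT2 hD
    ?_ ?_ ?_
  · rw [← mvW_linv α c π δ a, h, mvW_linv]
  · exact forest_gam α c π X₀ ℓ W Y₀ hY₀' t
  · have e : (W.filter fun w => Bad α c X₀ ℓ w.1)
        = (Γ.filter (Bad α c X₀ ℓ)) ×ˢ Finset.univ := by
      ext w; simp [W]
    have : 64 * k * (W.filter fun w => Bad α c X₀ ℓ w.1).card ≤ W.card := by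
      rw [e, Finset.card_product, Finset.card_product, ← mul_assoc]
      exact Nat.mul_le_mul_right _ hbad
    exact_mod_cast this
  · have : 0 < W.card := (hne.product (Finset.univ_nonempty (α := Q))).card_pos
    exact_mod_cast this

end Vale.Agent.P090
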