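import Mathlib

/-!
Definitions for problem P090: `Lip₀(M)`, the Lipschitz-free space, the bounded approximation
property, uniformly discrete metric spaces.
-/

namespace Vale.Agent.P090

section Lip

variable {M : Type} [MetricSpace M]

/-- `K` is a (nonnegative) Lipschitz constant of `f`. -/
def IsLipConst (f : M → ℝ) (K : ℝ) : Prop :=
  0 ≤ K ∧ ∀ x y : M, |f x - f y| ≤ K * dist x y

/-- The real vector space of Lipschitz functions `f : M → ℝ` with `f o = 0`. -/
def lipSubmodule (o : M) : Submodule ℝ (M → ℝ) where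
  carrier := {f | f o = 0 ∧ ∃ K, IsLipConst f K}
  zero_mem' := ⟨rfl, 0, le_rfl, by simp⟩
  add_mem' := by
    rintro f g ⟨hf, K, hK, hK'⟩ ⟨hg, L, hL, hL'⟩
    refine ⟨by simp [hf, hg], K + L, add_nonneg hK hL, fun x y => ?_⟩
    have h : (f + g) x - (f + g) y = (f x - f y) + (g x - g y) := by
      simp only [Pi.add_apply]; ring
    rw [h, add_mul]
    exact (abs_add_le _ _).trans (add_le_add (hK' x y) (hL' x y))
  smul_mem' := by
    rintro c f ⟨hf, K, hK, hK'⟩
    refine ⟨by simp [hf], |c| * K, mul_nonneg (abs_nonneg c) hK, fun x y => ?_⟩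
    have h : (c • f) x - (c • f) y = c * (f x - f y) := by
      simp only [Pi.smul_apply, smul_eq_mul]; ring
    rw [h, abs_mul, mul_assoc]
    exact mul_le_mul_of_nonneg_left (hK' x y) (abs_nonneg c)

/-- `Lip₀(M)` as a type (it carries the Lipschitz norm defined below). -/
def Lip0 (o : M) : Type := lipSubmodule o

noncomputable instance (o : M) : AddCommGroup (Lip0 o) :=
  inferInstanceAs (AddCommGroup (lipSubmodule o))

noncomputable instance (o : M) : Module ℝ (Lip0 o) :=
  inferInstanceAs (Module ℝ (lipSubmodule o))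

/-- The function underlying an element of `Lip₀(M)`. -/
def Lip0.toFun {o : M} (f : Lip0 o) : M → ℝ := Subtype.val f

/-- The Lipschitz constant of `f`: the infimum of its Lipschitz constants. -/
noncomputable def lipNorm {o : M} (f : Lip0 o) : ℝ := sInf {K | IsLipConst f.toFun K}

theorem lipNorm_nonneg {o : M} (f : Lip0 o) : 0 ≤ lipNorm f :=
  Real.sInf_nonneg fun _ h => h.1

theorem lipNorm_le {o : M} (f : Lip0 o) {K : ℝ} (h : IsLipConst f.toFun K) : lipNorm f ≤ K :=
  csInf_le ⟨0, fun _ h => h.1⟩ h

theorem lipNorm_spec {o : M} (f : Lip0 o) : IsLipConst f.toFun (lipNorm f) := by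
  refine ⟨lipNorm_nonneg f, fun x y => ?_⟩
  rcases eq_or_ne x y with rfl | hxy
  · simp
  · have hd : 0 < dist x y := dist_pos.2 hxy
    rw [← div_le_iff₀ hd]
    refine le_csInf (Subtype.property f).2 fun K hK => ?_
    rw [div_le_iff₀ hd]
    exact hK.2 x y

/-- The Lipschitz constant is a norm on `Lip₀(M)`. -/
noncomputable def lipGroupNorm (o : M) : AddGroupNorm (Lip0 o) where
  toFun := lipNorm
  map_zero' := le_antisymm (lipNorm_le _ ⟨le_rfl, fun x y => by
    have h : (0 : Lip0 o).toFun x - (0 : Lip0 o).toFun y = 0 := sub_self _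
    simp [h]⟩) (lipNorm_nonneg _)
  add_le' f g := lipNorm_le _ ⟨add_nonneg (lipNorm_nonneg f) (lipNorm_nonneg g), fun x y => by
    have h : (f + g).toFun x - (f + g).toFun y
        = (f.toFun x - f.toFun y) + (g.toFun x - g.toFun y) := by
      change (f.toFun x + g.toFun x) - (f.toFun y + g.toFun y) = _
      ring
    rw [h, add_mul]
    exact (abs_add_le _ _).trans
      (add_le_add ((lipNorm_spec f).2 x y) ((lipNorm_spec g).2 x y))⟩
  neg' f := by
    have h : ∀ x y, |(-f).toFun x - (-f).toFun y| = |f.toFun x - f.toFun y| := fun x y => by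
      change |(-f.toFun x) - (-f.toFun y)| = _
      rw [← abs_neg]; congr 1; ring
    simp only [lipNorm, IsLipConst, h]
  eq_zero_of_map_eq_zero' f hf := by
    apply Subtype.ext
    funext x
    have h := (lipNorm_spec f).2 x o
    have h0 : f.toFun o = 0 := (Subtype.property f).1
    change lipNorm f = 0 at hf
    rw [hf, h0] at h
    change f.toFun x = 0
    simpa using h

noncomputable instance (o : M) : NormedAddCommGroup (Lip0 o) :=
  (lipGroupNorm o).toNormedAddCommGroup

noncomputable instance (o : M) : NormedSpace ℝ (Lip0 o) where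
  norm_smul_le c f := lipNorm_le _ ⟨mul_nonneg (norm_nonneg c) (lipNorm_nonneg f), fun x y => by
    have h : (c • f).toFun x - (c • f).toFun y = c * (f.toFun x - f.toFun y) := by
      change c * f.toFun x - c * f.toFun y = _
      ring
    rw [h, abs_mul, mul_assoc]
    exact mul_le_mul_of_nonneg_left ((lipNorm_spec f).2 x y) (abs_nonneg c)⟩

/-- The evaluation functional `δ_x ∈ Lip₀(M)^*`, `δ_x(f) = f(x)`. -/
noncomputable def dirac (o x : M) : StrongDual ℝ (Lip0 o) :=
  LinearMap.mkContinuous
    { toFun := fun f => f.toFun x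
      map_add' := fun _ _ => rfl
      map_smul' := fun _ _ => rfl } (dist x o) fun f => by
    have h := (lipNorm_spec f).2 x o
    have h0 : f.toFun o = 0 := (Subtype.property f).1
    rw [h0, sub_zero, mul_comm] at h
    exact h

/-- The Lipschitz-free space: the closed linear span of the evaluations in `Lip₀(M)^*`. -/
noncomputable def FreeSpace (o : M) : Submodule ℝ (StrongDual ℝ (Lip0 o)) :=
  (Submodule.span ℝ (Set.range (dirac o))).topologicalClosure

end Lip

/-- The distances between distinct points are bounded below by a positive number. -/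
def UniformlyDiscrete (M : Type) [MetricSpace M] : Prop :=
  ∃ ε : ℝ, 0 < ε ∧ ∀ x y : M, x ≠ y → ε ≤ dist x y

/-- The bounded approximation property. -/
def HasBAP (X : Type) [NormedAddCommGroup X] [NormedSpace ℝ X] : Prop :=
  ∃ lam : ℝ, ∀ C : Set X, IsCompact C → ∀ ε : ℝ, 0 < ε →
    ∃ T : X →L[ℝ] X, FiniteDimensional ℝ (LinearMap.range (T : X →ₗ[ℝ] X)) ∧ ‖T‖ ≤ lam ∧
      ∀ u ∈ C, ‖T u - u‖ < ε

end Vale.Agent.P090
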