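import Vale.Agent.P090.Space

/-! The main theorem. -/

namespace Vale.Agent.P090

open Classical

/-- Restriction to the levels in `s`. -/
noncomputable def cut (s : Finset Idx) {k : ℕ} (f : Option UU × QQ k → ℝ)
    (z : Option UU × QQ k) : ℝ := if ∀ x, z.1 = some x → x.1 ∈ s then f z else 0

theorem cut_bdd (s : Finset Idx) {k : ℕ} (f : Option UU × QQ k → ℝ) :
    ∃ B, ∀ x, |ext0 k (cut s f) x| ≤ B := by
  let _ : Fintype (QQ k) := Fintype.ofFinite _
  let M₀ : Finset (Option UU × QQ k) :=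
    (Finset.insertNone (s.sigma fun _ => Finset.univ)) ×ˢ Finset.univ
  refine ⟨∑ z ∈ M₀, |f z|, fun x => ?_⟩
  have h0 : 0 ≤ ∑ z ∈ M₀, |f z| := Finset.sum_nonneg fun _ _ => abs_nonneg _
  by_cases hx : ∃ z, inc k z = x
  · obtain ⟨z, rfl⟩ := hx
    rw [ext0_inc, cut]
    split_ifs with h
    · refine Finset.single_le_sum (f := fun z => |f z|) (fun _ _ => abs_nonneg _) ?_
      simp only [M₀, Finset.mem_product, Finset.mem_univ, and_true, Finset.mem_insertNone]
      intro a ha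
      simpa using h a ha
    · simpa using h0
  · rw [ext0_of_not k _ x hx]; simpa using h0

variable [MetricSpace MM]

/-- The linear map from functions on level `k` to `Lip₀`. -/
noncomputable def JJ (h1 : ∀ x y : MM, x ≠ y → 1 ≤ dist x y) (s : Finset Idx) (k : ℕ) :
    (Option UU × QQ k → ℝ) →ₗ[ℝ] Lip0 (none : MM) where
  toFun f := mkLip (ext0 k (cut s f)) (ext0_none _ _) (by
    obtain ⟨B, hB⟩ := cut_bdd s f
    exact ⟨_, isLipConst_of_bdd h1 _ B hB none⟩)
  map_add' f g := by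
    apply Subtype.ext
    funext x
    change ext0 k (cut s (f + g)) x = ext0 k (cut s f) x + ext0 k (cut s g) x
    by_cases hx : ∃ z, inc k z = x
    · obtain ⟨z, rfl⟩ := hx
      simp only [ext0_inc, cut]
      split_ifs <;> simp
    · simp [ext0_of_not k _ x hx]
  map_smul' a f := by
    apply Subtype.ext
    funext x
    change ext0 k (cut s (a • f)) x = a * ext0 k (cut s f) x
    by_cases hx : ∃ z, inc k z = x
    · obtain ⟨z, rfl⟩ := hx
      simp only [ext0_inc, cut]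
      split_ifs <;> simp
    · simp [ext0_of_not k _ x hx]

theorem JJ_toFun (h1 : ∀ x y : MM, x ≠ y → 1 ≤ dist x y) (s : Finset Idx) (k : ℕ)
    (f : Option UU × QQ k → ℝ) : (JJ h1 s k f).toFun = ext0 k (cut s f) := rfl

theorem norm_JJ (h1 : ∀ x y : MM, x ≠ y → 1 ≤ dist x y)
    (h3 : ∀ (f : MM → ℝ) (L : ℝ), 0 < L → (∀ x y w, WW x y w → |f x - f y| ≤ L * w) →
      ∀ x y, |f x - f y| ≤ L * dist x y) (s : Finset Idx) (k : ℕ) (L : ℝ) (hL : 0 < L)
    (f : Option UU × QQ k → ℝ) (hf : Adm alU cU (piQ k) (32 * ((k + 1 : ℕ) : ℝ)) L f) :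
    ‖JJ h1 s k f‖ ≤ L := by
  have hk : (1 : ℝ) ≤ ((k + 1 : ℕ) : ℝ) := by exact_mod_cast Nat.le_add_left 1 k
  have hc : ∀ z, |cut s f z| ≤ L * (32 * ((k + 1 : ℕ) : ℝ)) / 2 := by
    intro z
    rw [cut]
    split_ifs
    · exact hf.2 z
    · rw [abs_zero]; positivity
  refine norm_le_of _ ⟨hL.le, h3 _ L hL (ext0_constraint k _ L hL ?_ ?_ ?_)⟩
  · rintro δ ⟨⟨i, v⟩, g⟩
    have := hf.1 δ (⟨i, v⟩, g)
    by_cases h : i ∈ s
    · simpa [cut, up, mvW, dact_alU, h] using this
    · simpa [cut, up, mvW, dact_alU, h] using hL.le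
  · intro z
    refine (abs_sub _ _).trans ?_
    linarith [hc (up z), hc (none, z.2)]
  · intro z
    refine (hc z).trans ?_
    have : (rho k : ℝ) = 4096 * ((k + 1 : ℕ) : ℝ) ^ 2 := by rw [rho]; push_cast; ring
    rw [this, mul_div_assoc]
    exact mul_le_mul_of_nonneg_left (by nlinarith) hL.le

theorem not_bap (h1 : ∀ x y : MM, x ≠ y → 1 ≤ dist x y)
    (h2 : ∀ x y w, WW x y w → dist x y ≤ w)
    (h3 : ∀ (f : MM → ℝ) (L : ℝ), 0 < L → (∀ x y w, WW x y w → |f x - f y| ≤ L * w) →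
      ∀ x y, |f x - f y| ≤ L * dist x y) : ¬ HasBAP (FreeSpace (none : MM)) := by
  intro hB
  obtain ⟨lam, hlam⟩ := bap_extract hB
  obtain ⟨k, hk⟩ := exists_nat_ge lam
  let _ : Fintype (QQ k) := Fintype.ofFinite _
  obtain ⟨Ψ, hT, hTA, hTK⟩ := hlam (Set.range fun g : QQ k => inc k (none, g))
    (Set.finite_range _)
  set K : ℝ := ((k + 1 : ℕ) : ℝ) with hK
  have hK1 : 1 ≤ K := by rw [hK]; exact_mod_cast Nat.le_add_left 1 k
  have hTK' : lam ≤ K := by rw [hK]; push_cast; linarith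
  have hρ : (rho k : ℝ) = 4096 * K ^ 2 := by rw [rho, hK]; push_cast; ring
  have hρ0 : 0 < rho k := by rw [rho]; positivity
  have hlip : ∀ x y w, WW x y w → ∀ f, |Ψ x f - Ψ y f| ≤ K * w * ‖f‖ := by
    intro x y w hw f
    exact (hT x y f).trans (mul_le_mul_of_nonneg_right
      (mul_le_mul hTK' (h2 x y w hw) dist_nonneg (by linarith)) (norm_nonneg f))
  let ψ : UU × QQ k → (Lip0 (none : MM) →ₗ[ℝ] ℝ) := fun w => Ψ (inc k (up w))
  obtain ⟨s, hs⟩ := hTK Idx
    (fun s => {x : MM | ∀ v g, x = inc k (some v, g) → v.1 ∈ s})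
    (fun s s' hss x hx v g h => hss (hx v g h)) (fun x => by
      by_cases hx : ∃ v g, x = inc k (some v, g)
      · obtain ⟨v, g, rfl⟩ := hx
        refine ⟨{v.1}, fun v' g' h => ?_⟩
        have := inc_injective k h
        simp only [Prod.mk.injEq, Option.some.injEq] at this
        rw [← this.1]; exact Finset.mem_singleton_self _
      · exact ⟨∅, fun v g h => absurd ⟨v, g, h⟩ hx⟩) (rho k + 1)
  have hψa : ∀ w f, |ψ w f - f.toFun (inc k (none, w.2))| ≤ 2 * K * (32 * K) * ‖f‖ := by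
    intro w f
    have a1 := abs_le.1 (hlip (inc k (up w)) (inc k (none, w.2)) _
      (Or.inr (Or.inl ⟨k, w, rfl, rfl, rfl⟩)) f)
    have a2 := abs_le.1 (hTA _ ⟨w.2, rfl⟩ f)
    have a3 : 1 * ‖f‖ ≤ K * (32 * K) * ‖f‖ :=
      mul_le_mul_of_nonneg_right (by nlinarith) (norm_nonneg f)
    simp only [← hK] at a1
    rw [abs_le]
    constructor <;> simp only [ψ] <;> linarith
  let X₀ : Finset UU := s.sigma fun _ => Finset.univ
  have hX₀ : ∀ x : UU, x ∈ X₀ ↔ x.1 ∈ s := fun x => by simp [X₀]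
  obtain ⟨Γ, ℓ, hΓ, hne, hbad⟩ := exists_new X₀ (64 * (k + 1))
  refine core alU cU (k + 1) (Nat.le_add_left 1 k) rfl (piQ_spec k) X₀ Γ ?_ hΓ hne ℓ hbad
    (fun w => ψ w ∘ₗ JJ h1 s k) ?_ ?_ ?_ ?_
  · rintro δ ⟨i, v⟩ hx
    rw [dact_alU, hX₀]
    exact (hX₀ ⟨i, v⟩).1 hx
  · intro w f f' h
    have : JJ h1 s k f = JJ h1 s k f' := by
      apply Subtype.ext
      change ext0 k (cut s f) = ext0 k (cut s f')
      congr 1
      funext z
      rw [cut, cut]
      split_ifs with hz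
      · exact h z fun x hx => (hX₀ x).2 (hz x hx)
      · rfl
    simp only [LinearMap.comp_apply, this]
  · intro δ w L f hL hf
    refine (hlip _ _ _ (Or.inl ⟨k, δ, w, rfl, rfl, rfl⟩) (JJ h1 s k f)).trans ?_
    rw [mul_one]
    exact mul_le_mul_of_nonneg_left (norm_JJ h1 h3 s k L hL f hf) (by linarith)
  · intro w L f hL hf
    have e : f (none, w.2) = (JJ h1 s k f).toFun (inc k (none, w.2)) := by
      rw [JJ_toFun, ext0_inc, cut, if_pos (by simp)]
    rw [e]
    refine (hψa w (JJ h1 s k f)).trans ?_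
    exact mul_le_mul_of_nonneg_left (norm_JJ h1 h3 s k L hL f hf) (by positivity)
  · intro w
    set θ : Option UU × QQ k → ℝ := fun z => th (piQ k) (rho k) (z.2 * w.2⁻¹) with hθ
    have hρ1 : (0 : ℝ) < rho k := by exact_mod_cast hρ0
    have hθ1 : ∀ z, |θ z| ≤ 1 := fun z => by
      have := th_mem (piQ_spec k) hρ0 (z.2 * w.2⁻¹)
      rw [abs_of_nonneg this.1]; exact this.2
    have hL : IsLipConst (ext0 k θ) (1 / rho k) := by
      refine ⟨by positivity, h3 _ _ (by positivity)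
        (ext0_constraint k _ _ (by positivity) ?_ ?_ ?_)⟩
      · intro δ z
        simpa [Fn] using Fn_move alU cU (piQ_spec k) hρ0 w (fun _ => 1) (by simp) δ z
      · intro z
        simp only [hθ, up, sub_self, abs_zero]
        positivity
      · intro z
        rw [one_div_mul_cancel hρ1.ne']; exact hθ1 z
    let g : Lip0 (none : MM) := mkLip (ext0 k θ) (ext0_none _ _) ⟨_, hL⟩
    have hg : ‖g‖ ≤ 1 / rho k := norm_le_of g hL
    have hval : ∀ x, (g - JJ h1 s k θ).toFun x = ext0 k θ x - ext0 k (cut s θ) x := fun _ => rfl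
    have hh : ‖g - JJ h1 s k θ‖ ≤ 2 * 1 := by
      refine norm_le_of _ (isLipConst_of_bdd h1 _ 1 (fun x => ?_) none)
      rw [hval]
      by_cases hx : ∃ z, inc k z = x
      · obtain ⟨z, rfl⟩ := hx
        rw [ext0_inc, ext0_inc, cut]
        split_ifs
        · simp
        · simpa using hθ1 z
      · simp [ext0_of_not k _ x hx]
    have b1 := hs (inc k (up w)) (h2 _ none _ (Or.inr (Or.inr rfl))) (g - JJ h1 s k θ)
        fun x hx => by
      rw [hval]
      by_cases hx' : ∃ z, inc k z = x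
      · obtain ⟨⟨z, q⟩, rfl⟩ := hx'
        rw [ext0_inc, ext0_inc, cut, if_pos, sub_self]
        rintro v rfl
        exact hx v q rfl
      · simp [ext0_of_not k _ x hx']
    have b2 := hψa w g
    have b3 : g.toFun (inc k (none, w.2)) = 1 := by
      change ext0 k θ (inc k (none, w.2)) = 1
      rw [ext0_inc]
      simp only [hθ, mul_inv_cancel]
      exact th_one (piQ_spec k)
    have b4 : 2 * K * (32 * K) * ‖g‖ ≤ 1 / 64 := by
      refine (mul_le_mul_of_nonneg_left hg (by positivity)).trans (le_of_eq ?_)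
      rw [hρ]; field_simp; norm_num
    rw [b3] at b2
    rw [map_sub] at b1
    change 1 / 2 ≤ Ψ (inc k (up w)) (JJ h1 s k θ)
    have := abs_le.1 (b2.trans b4)
    have := abs_le.1 b1
    simp only [ψ] at *
    linarith

omit [MetricSpace MM] in
theorem main : ∃ (M : Type) (_ : MetricSpace M) (o : M),
    Countable M ∧ UniformlyDiscrete M ∧ ¬ HasBAP (FreeSpace o) := by
  obtain ⟨m, h1, h2, h3⟩ := exists_metric MM WW WW_one fun x y => ⟨_, Or.inr (Or.inr rfl)⟩
  exact ⟨MM, m, none, inferInstance, ⟨1, one_pos, h1⟩, not_bap h1 h2 h3⟩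

end Vale.Agent.P090
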