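import Vale.Agent.P090.Color

/-! Letters, short words, cut-off functions and the leaf lemma. -/

namespace Vale.Agent.P090

open Classical

/-- Generators of the big free group: a direction and two colours. -/
abbrev Gen : Type := Bool × Col × Col

section Letters

variable {U : Type} (α : Bool → Equiv.Perm U) (c : U → Col)

/-- The letter read when leaving `x` in the signed direction `δ`. -/
def letter (x : U) (δ : Bool × Bool) : Gen × Bool :=
  if δ.2 then ((δ.1, c x, c (dact α δ x)), true) else ((δ.1, c (dact α δ x), c x), false)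

/-- The signed direction of a letter. -/
def ldir (σ : Gen × Bool) : Bool × Bool := (σ.1.1, σ.2)

theorem ldir_letter (x : U) (δ : Bool × Bool) : ldir (letter α c x δ) = δ := by
  obtain ⟨d, b⟩ := δ
  cases b <;> simp [letter, ldir]

theorem ldir_linv (σ : Gen × Bool) : ldir (linv σ) = linv (ldir σ) := rfl

theorem letter_linv (x : U) (δ : Bool × Bool) :
    letter α c (dact α δ x) (linv δ) = linv (letter α c x δ) := by
  have h := dact_linv α δ x
  obtain ⟨d, b⟩ := δ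
  cases b
  · simp only [letter, h]; simp [linv]
  · simp only [letter, h]; simp [linv]

theorem letter_color {x x' : U} {δ : Bool × Bool} (h : letter α c x δ = letter α c x' δ) :
    c x = c x' := by
  obtain ⟨d, b⟩ := δ
  cases b <;> simp [letter] at h <;> tauto

/-- The locally defined moves. -/
def pact : PAct (Option U) Gen where
  avail x σ := ∃ x', x = some x' ∧ σ = letter α c x' (ldir σ)
  mv x σ := x.map (dact α (ldir σ))
  avail_inv := by
    rintro x σ ⟨x', rfl, h⟩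
    refine ⟨dact α (ldir σ) x', rfl, ?_⟩
    rw [ldir_linv, letter_linv, ← h]
  mv_inv := by
    rintro x σ ⟨x', rfl, -⟩
    simp [ldir_linv, dact_linv]

theorem act_emb (x : U) (δ : Bool × Bool) :
    (pact α c).act (FreeGroup.mk [letter α c x δ]) ((pact α c).emb (some x))
      = (pact α c).emb (some (dact α δ x)) := by
  have h : (pact α c).avail (some x) (letter α c x δ) := ⟨x, rfl, by rw [ldir_letter]⟩
  rw [PAct.act_mk, PAct.step_emb _ _ _ h]
  simp [pact, ldir_letter]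

theorem mk_linv {S : Type} (σ : S × Bool) : FreeGroup.mk [linv σ] = (FreeGroup.mk [σ])⁻¹ := by
  rw [FreeGroup.inv_mk]; rfl

variable {Q : Type} [Group Q] (π : FreeGroup Gen →* Q)

/-- The move on the covering graph. -/
def mvW (δ : Bool × Bool) (w : U × Q) : U × Q :=
  (dact α δ w.1, π (FreeGroup.mk [letter α c w.1 δ]) * w.2)

theorem mvW_linv (δ : Bool × Bool) (w : U × Q) : mvW α c π (linv δ) (mvW α c π δ w) = w := by
  simp only [mvW, dact_linv, letter_linv, mk_linv, map_inv, inv_mul_cancel_left]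

/-- The move on the product with the completed space. -/
noncomputable def gam (δ : Bool × Bool) (p : (U × Q) × (pact α c).Y) : (U × Q) × (pact α c).Y :=
  (mvW α c π δ p.1, (pact α c).step (letter α c p.1.1 δ) p.2)

theorem gam_linv (δ : Bool × Bool) (p : (U × Q) × (pact α c).Y) :
    gam α c π (linv δ) (gam α c π δ p) = p := by
  apply Prod.ext
  · exact mvW_linv α c π δ p.1
  · change (pact α c).step (letter α c (dact α δ p.1.1) (linv δ)) _ = _
    rw [letter_linv]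
    exact PAct.step_step _ _ _

/-- A vertex is bad if some long reduced walk from it has the colours of a walk in `X₀`. -/
def Bad (X₀ : Finset U) (ℓ : ℕ) (v : U) : Prop :=
  ∃ x ∈ X₀, ∃ l : List (Bool × Bool), FreeGroup.IsReduced l ∧ l.length = ℓ ∧
    ∀ j < ℓ, c (walk α v (l.take j)) = c (walk α x (l.take j))

theorem exists_leaf (X₀ : Finset U) (ℓ : ℕ) (P : Finset ((U × Q) × (pact α c).Y))
    (hP : ∀ p ∈ P, ¬ Bad α c X₀ ℓ p.1.1 ∧ ∀ x, p.2.1.1 = some x → x ∈ X₀) (hne : P.Nonempty) :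
    ∃ p ∈ P, ∀ d d', gam α c π d p ∈ P → gam α c π d' p ∈ P → d = d' := by
  by_contra hcon
  push Not at hcon
  obtain ⟨p₀, hp₀, hmax⟩ := P.exists_max_image (fun p => (pact α c).ht p.2) hne
  have h0 : (pact α c).ht p₀.2 = 0 := by
    by_contra h
    obtain ⟨d, d', hd, hd', hdd⟩ := hcon p₀ hp₀
    have := (pact α c).ht_unique p₀.2 (Nat.pos_of_ne_zero h) _ _ (hmax _ hd) (hmax _ hd')
    exact hdd (by rw [← ldir_letter α c p₀.1.1 d, this, ldir_letter])
  have hz : ∀ p ∈ P, (pact α c).ht p.2 = 0 := fun p hp => Nat.le_zero.1 (h0 ▸ hmax p hp)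
  have key : ∀ n : ℕ, ∀ p ∈ P, ∀ x, p.2.1.1 = some x → ∀ δ₀ : Bool × Bool,
      ∃ l : List (Bool × Bool), l.length = n ∧ FreeGroup.IsReduced (δ₀ :: l) ∧
        ∀ j < n, c (walk α p.1.1 (l.take j)) = c (walk α x (l.take j)) := by
    intro n
    induction n with
    | zero => intro p _ x _ δ₀; exact ⟨[], rfl, FreeGroup.IsReduced.singleton, by simp⟩
    | succ n ih =>
      intro p hp x hx δ₀
      obtain ⟨δ, hδ, hδ'⟩ : ∃ δ, gam α c π δ p ∈ P ∧ δ ≠ linv δ₀ := by
        obtain ⟨d, d', hd, hd', hdd⟩ := hcon p hp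
        by_cases h : d = linv δ₀
        · exact ⟨d', hd', fun h' => hdd (h.trans h'.symm)⟩
        · exact ⟨d, hd, h⟩
      obtain ⟨⟨x', hx', hl⟩, hb⟩ := (pact α c).ht_zero p.2 (hz p hp) _ (hz _ hδ)
      obtain rfl : x = x' := by rw [hx] at hx'; exact Option.some.inj hx'
      rw [ldir_letter] at hl
      have hb' : (gam α c π δ p).2.1.1 = some (dact α δ x) := by
        change ((pact α c).step _ _).1.1 = _
        rw [hb, hx]
        simp [pact, ldir_letter]
      obtain ⟨l, hl1, hl2, hl3⟩ := ih _ hδ _ hb' δ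
      refine ⟨δ :: l, by simp [hl1], ?_, fun j hj => ?_⟩
      · refine List.isChain_cons_cons.2 ⟨fun h => ?_, hl2⟩
        by_contra h'
        apply hδ'
        obtain ⟨a, b⟩ := δ
        obtain ⟨a', b'⟩ := δ₀
        simp only at h h'
        subst h
        cases b <;> cases b' <;> simp_all [linv]
      · rcases j with _ | j
        · simpa using letter_color α c hl
        · exact hl3 j (by omega)
  obtain ⟨d, -, hd, -, -⟩ := hcon p₀ hp₀
  obtain ⟨⟨x, hx, -⟩, -⟩ := (pact α c).ht_zero p₀.2 h0 _ (hz _ hd)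
  obtain ⟨l, hl1, hl2, hl3⟩ := key ℓ p₀ hp₀ x hx d
  exact (hP p₀ hp₀).1 ⟨x, (hP p₀ hp₀).2 x hx, l, List.IsChain.tail hl2, hl1, hl3⟩

end Letters

section Short

variable {Q : Type} [Group Q] (π : FreeGroup Gen →* Q) (ρ : ℕ)

/-- The short word representing `g`, if there is one. -/
noncomputable def sw (g : Q) : FreeGroup Gen :=
  if h : ∃ w : FreeGroup Gen, w.norm ≤ ρ ∧ π w = g then h.choose else 1

/-- The cut-off function. -/
noncomputable def th (g : Q) : ℝ :=
  if ∃ w : FreeGroup Gen, w.norm ≤ ρ ∧ π w = g then 1 - ((sw π ρ g).norm : ℝ) / ρ else 0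

variable {π ρ}

theorem sw_eq (hπ : ∀ w w' : FreeGroup Gen, w.norm ≤ ρ → w'.norm ≤ ρ → π w = π w' → w = w')
    (w : FreeGroup Gen) (hw : w.norm ≤ ρ) : sw π ρ (π w) = w := by
  have h : ∃ w' : FreeGroup Gen, w'.norm ≤ ρ ∧ π w' = π w := ⟨w, hw, rfl⟩
  rw [sw, dif_pos h]
  exact hπ _ _ h.choose_spec.1 hw h.choose_spec.2

theorem th_eq (hπ : ∀ w w' : FreeGroup Gen, w.norm ≤ ρ → w'.norm ≤ ρ → π w = π w' → w = w')
    (w : FreeGroup Gen) (hw : w.norm ≤ ρ) : th π ρ (π w) = 1 - (w.norm : ℝ) / ρ := by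
  rw [th, if_pos ⟨w, hw, rfl⟩, sw_eq hπ w hw]

theorem th_one (hπ : ∀ w w' : FreeGroup Gen, w.norm ≤ ρ → w'.norm ≤ ρ → π w = π w' → w = w') :
    th π ρ 1 = 1 := by
  have := th_eq hπ 1 (by simp)
  simpa using this

theorem th_mem (hπ : ∀ w w' : FreeGroup Gen, w.norm ≤ ρ → w'.norm ≤ ρ → π w = π w' → w = w')
    (hρ : 0 < ρ) (g : Q) : 0 ≤ th π ρ g ∧ th π ρ g ≤ 1 := by
  by_cases h : ∃ w : FreeGroup Gen, w.norm ≤ ρ ∧ π w = g
  · obtain ⟨w, hw, rfl⟩ := h
    rw [th_eq hπ w hw]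
    have h1 : (w.norm : ℝ) / ρ ≤ 1 := by
      rw [div_le_one (by exact_mod_cast hρ)]; exact_mod_cast hw
    have h2 : 0 ≤ (w.norm : ℝ) / ρ := by positivity
    constructor <;> linarith
  · simp [th, if_neg h]

theorem th_zero (hπ : ∀ w w' : FreeGroup Gen, w.norm ≤ ρ → w'.norm ≤ ρ → π w = π w' → w = w')
    (hρ : 0 < ρ) (g : Q) (h : ¬ ∃ w : FreeGroup Gen, w.norm < ρ ∧ π w = g) : th π ρ g = 0 := by
  by_cases h' : ∃ w : FreeGroup Gen, w.norm ≤ ρ ∧ π w = g
  · obtain ⟨w, hw, rfl⟩ := h'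
    have : w.norm = ρ := le_antisymm hw (not_lt.1 fun h2 => h ⟨w, h2, rfl⟩)
    rw [th_eq hπ w hw, this, div_self (by exact_mod_cast hρ.ne'), sub_self]
  · simp [th, if_neg h']

theorem adj_aux (hπ : ∀ w w' : FreeGroup Gen, w.norm ≤ ρ → w'.norm ≤ ρ → π w = π w' → w = w')
    (hρ : 0 < ρ) (F F' : FreeGroup Gen → ℝ) (hF : ∀ w, |F w| ≤ 1) (u u' : FreeGroup Gen)
    (hu : u.norm + u'.norm ≤ 1) (hFF : ∀ w, F' (u * w * u') = F w) (w : FreeGroup Gen)
    (hw : w.norm < ρ) :
    |th π ρ (π u * π w * π u') * F' (sw π ρ (π u * π w * π u'))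
      - th π ρ (π w) * F (sw π ρ (π w))| ≤ 1 / ρ := by
  have h1 : (u * w * u').norm ≤ w.norm + 1 := by
    have := FreeGroup.norm_mul_le (u * w) u'
    have := FreeGroup.norm_mul_le u w
    omega
  have h2 : w.norm ≤ (u * w * u').norm + 1 := by
    have e : w = u⁻¹ * (u * w * u') * u'⁻¹ := by group
    have := FreeGroup.norm_mul_le (u⁻¹ * (u * w * u')) u'⁻¹
    have := FreeGroup.norm_mul_le u⁻¹ (u * w * u')
    rw [← e] at *
    simp only [FreeGroup.norm_inv_eq] at *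
    omega
  rw [← map_mul, ← map_mul, sw_eq hπ _ (by omega), sw_eq hπ _ hw.le, th_eq hπ _ (by omega),
    th_eq hπ _ hw.le, hFF, ← sub_mul, abs_mul]
  have hρ' : (0 : ℝ) < ρ := by exact_mod_cast hρ
  have h3 : |1 - ((u * w * u').norm : ℝ) / ρ - (1 - (w.norm : ℝ) / ρ)| ≤ 1 / ρ := by
    have e : 1 - ((u * w * u').norm : ℝ) / ρ - (1 - (w.norm : ℝ) / ρ)
        = ((w.norm : ℝ) - (u * w * u').norm) / ρ := by ring
    rw [e, abs_div, abs_of_pos hρ']
    gcongr
    have h1' : ((u * w * u').norm : ℝ) ≤ w.norm + 1 := by exact_mod_cast h1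
    have h2' : (w.norm : ℝ) ≤ (u * w * u').norm + 1 := by exact_mod_cast h2
    rw [abs_le]; constructor <;> linarith
  calc _ ≤ 1 / (ρ : ℝ) * 1 := mul_le_mul h3 (hF w) (abs_nonneg _) (by positivity)
    _ = 1 / (ρ : ℝ) := mul_one _

theorem adj (hπ : ∀ w w' : FreeGroup Gen, w.norm ≤ ρ → w'.norm ≤ ρ → π w = π w' → w = w')
    (hρ : 0 < ρ) (F F' : FreeGroup Gen → ℝ) (hF : ∀ w, |F w| ≤ 1) (u u' : FreeGroup Gen)
    (hu : u.norm + u'.norm ≤ 1) (hFF : ∀ w, F' (u * w * u') = F w) (g g' : Q)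
    (hg : g' = π u * g * π u') :
    |th π ρ g' * F' (sw π ρ g') - th π ρ g * F (sw π ρ g)| ≤ 1 / ρ := by
  by_cases h : ∃ w : FreeGroup Gen, w.norm < ρ ∧ π w = g
  · obtain ⟨w, hw, rfl⟩ := h
    rw [hg]
    exact adj_aux hπ hρ F F' hF u u' hu hFF w hw
  by_cases h' : ∃ w : FreeGroup Gen, w.norm < ρ ∧ π w = g'
  · obtain ⟨w, hw, rfl⟩ := h'
    have e : g = π u⁻¹ * π w * π u'⁻¹ := by rw [hg, map_inv, map_inv]; group
    have hFF' : ∀ w, F (u⁻¹ * w * u'⁻¹) = F' w := fun w => by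
      rw [← hFF]; congr 1; group
    rw [abs_sub_comm, e]
    exact adj_aux hπ hρ F' F (fun w => by rw [← hFF']; exact hF _) u⁻¹ u'⁻¹ (by simpa using hu)
      hFF' w hw
  · rw [th_zero hπ hρ g h, th_zero hπ hρ g' h']
    simp

end Short

end Vale.Agent.P090
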