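import Vale.Agent.P090.Core
import Vale.Agent.P090.Defs

/-! The metric space and general facts on the free space. -/

namespace Vale.Agent.P090

open Classical

section Free

variable {M : Type} [MetricSpace M] {o : M}

/-- An element of `Lip₀` from a function with a Lipschitz constant. -/
def mkLip (f : M → ℝ) (h0 : f o = 0) (h : ∃ K, IsLipConst f K) : Lip0 o :=
  (⟨f, h0, h⟩ : lipSubmodule o)

theorem norm_le_of (f : Lip0 o) {K : ℝ} (h : IsLipConst f.toFun K) : ‖f‖ ≤ K := lipNorm_le f h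

theorem isLipConst_of_bdd (h1 : ∀ x y : M, x ≠ y → 1 ≤ dist x y) (f : M → ℝ) (B : ℝ)
    (hB : ∀ x, |f x| ≤ B) (x₀ : M) : IsLipConst f (2 * B) := by
  have hB0 : 0 ≤ B := (abs_nonneg _).trans (hB x₀)
  refine ⟨by positivity, fun x y => ?_⟩
  rcases eq_or_ne x y with rfl | hxy
  · simp
  · have := h1 x y hxy
    have a := abs_le.1 (hB x)
    have b := abs_le.1 (hB y)
    rw [abs_le]; constructor <;> nlinarith

/-- The evaluation functional as an element of the free space. -/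
noncomputable def dF (o x : M) : FreeSpace o :=
  ⟨dirac o x, Submodule.le_topologicalClosure _ (Submodule.subset_span ⟨x, rfl⟩)⟩

theorem dF_apply (x : M) (f : Lip0 o) : (dF o x).1 f = f.toFun x := rfl

theorem norm_dF_sub (x y : M) : ‖dF o x - dF o y‖ ≤ dist x y := by
  change ‖dirac o x - dirac o y‖ ≤ _
  refine ContinuousLinearMap.opNorm_le_bound _ dist_nonneg fun f => ?_
  rw [mul_comm]
  exact (lipNorm_spec f).2 x y

theorem dF_base : dF o o = 0 := by
  apply Subtype.ext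
  ext f
  exact (Subtype.property f).1

theorem abs_apply_sub (u v : FreeSpace o) (f : Lip0 o) : |u.1 f - v.1 f| ≤ ‖u - v‖ * ‖f‖ :=
  (u - v).1.le_opNorm f

theorem tail_estimate {I : Type} (P : Finset I → Set M) (hmono : Monotone P)
    (hP : ∀ x, ∃ s, x ∈ P s) (K : Set (FreeSpace o)) (hK : IsCompact K) :
    ∃ s : Finset I, ∀ u ∈ K, ∀ h : Lip0 o,
      (∀ x ∈ P s, h.toFun x = 0) → |u.1 h| ≤ 1 / 8 * ‖h‖ := by
  let O : Finset I → Set (FreeSpace o) := fun s =>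
    {u | ∃ μ : FreeSpace o, (∀ h : Lip0 o, (∀ x ∈ P s, h.toFun x = 0) → μ.1 h = 0) ∧
      ‖u - μ‖ < 1 / 8}
  have hO : ∀ s, IsOpen (O s) := by
    intro s
    have : O s = ⋃ μ : {μ : FreeSpace o //
        ∀ h : Lip0 o, (∀ x ∈ P s, h.toFun x = 0) → μ.1 h = 0}, Metric.ball μ.1 (1 / 8) := by
      ext u
      have e : ∀ μ : FreeSpace o, dist u μ = ‖u - μ‖ := fun μ => dist_eq_norm u.1 μ.1
      simp only [O, Set.mem_iUnion, Metric.mem_ball, e]
      exact ⟨fun ⟨μ, h1, h2⟩ => ⟨⟨μ, h1⟩, h2⟩, fun ⟨μ, h2⟩ => ⟨μ.1, μ.2, h2⟩⟩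
    rw [this]
    exact isOpen_iUnion fun _ => Metric.isOpen_ball
  have hOm : Monotone O := by
    rintro s s' hs u ⟨μ, h1, h2⟩
    exact ⟨μ, fun h hh => h1 h fun x hx => hh x (hmono hs hx), h2⟩
  have hspan : ∀ μ ∈ Submodule.span ℝ (Set.range (dirac o)), ∃ s : Finset I,
      ∀ h : Lip0 o, (∀ x ∈ P s, h.toFun x = 0) → μ h = 0 := by
    intro μ hμ
    induction hμ using Submodule.span_induction with
    | mem x hx =>
      obtain ⟨x, rfl⟩ := hx
      obtain ⟨s, hs⟩ := hP x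
      exact ⟨s, fun h hh => hh x hs⟩
    | zero => exact ⟨∅, fun _ _ => rfl⟩
    | add x y _ _ hx hy =>
      obtain ⟨s, hs⟩ := hx
      obtain ⟨s', hs'⟩ := hy
      refine ⟨s ∪ s', fun h hh => ?_⟩
      rw [add_apply,
        hs h fun x hx => hh x (hmono Finset.subset_union_left hx),
        hs' h fun x hx => hh x (hmono Finset.subset_union_right hx), add_zero]
    | smul a x _ hx =>
      obtain ⟨s, hs⟩ := hx
      exact ⟨s, fun h hh => by rw [smul_apply, hs h hh, smul_zero]⟩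
  obtain ⟨s, hs⟩ := hK.elim_directed_cover O hO (fun u _ => by
    have hu : u.1 ∈ closure (Submodule.span ℝ (Set.range (dirac o)) : Set _) := u.2
    obtain ⟨μ, hμ, hd⟩ := Metric.mem_closure_iff.1 hu (1 / 8) (by norm_num)
    obtain ⟨s, hs⟩ := hspan μ hμ
    refine Set.mem_iUnion.2 ⟨s, ⟨μ, Submodule.le_topologicalClosure _ hμ⟩, hs, ?_⟩
    rw [dist_eq_norm] at hd
    exact hd) hOm.directed_le
  refine ⟨s, fun u hu h hh => ?_⟩
  obtain ⟨μ, h1, h2⟩ := hs hu
  have := abs_apply_sub u μ h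
  rw [h1 h hh, sub_zero] at this
  exact this.trans (mul_le_mul_of_nonneg_right h2.le (norm_nonneg _))

end Free

theorem HasBAP.consequence {X : Type} [NormedAddCommGroup X] [NormedSpace ℝ X] (h : HasBAP X) :
    ∃ lam : ℝ, ∀ A : Set X, A.Finite → ∃ T : X →L[ℝ] X, ‖T‖ ≤ lam ∧ (∀ a ∈ A, ‖T a - a‖ < 1) ∧
      ∀ R : ℝ, ∃ K : Set X, IsCompact K ∧ ∀ u, ‖T u‖ ≤ R → T u ∈ K := by
  obtain ⟨lam, h⟩ := h
  refine ⟨lam, fun A hA => ?_⟩
  obtain ⟨T, h1, h2, h3⟩ := h A hA.isCompact 1 one_pos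
  refine ⟨T, h2, h3, fun R => ?_⟩
  let V := LinearMap.range (T : X →ₗ[ℝ] X)
  have hprop : ProperSpace V := FiniteDimensional.proper_real V
  refine ⟨_, (isCompact_closedBall (0 : V) R).image continuous_subtype_val, fun u hu => ?_⟩
  exact ⟨⟨T u, u, rfl⟩, by simpa using hu, rfl⟩

theorem gen_lip {X : Type} [NormedAddCommGroup X] [NormedSpace ℝ X] (T : X →L[ℝ] X) (a b : X)
    (lam d : ℝ) (h : ‖T‖ ≤ lam) (hd : ‖a - b‖ ≤ d) : ‖T a - T b‖ ≤ lam * d := by
  rw [← map_sub]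
  exact (T.le_opNorm _).trans (mul_le_mul h hd (norm_nonneg _) ((norm_nonneg _).trans h))

theorem gen_lip0 {X : Type} [NormedAddCommGroup X] [NormedSpace ℝ X] (T : X →L[ℝ] X) (a b : X)
    (lam d : ℝ) (h : ‖T‖ ≤ lam) (hd : ‖a - b‖ ≤ d) (hb : b = 0) : ‖T a‖ ≤ lam * d := by
  have := gen_lip T a b lam d h hd
  rwa [hb, map_zero, sub_zero] at this

theorem bap_extract {M : Type} [MetricSpace M] {o : M} (hB : HasBAP (FreeSpace o)) :
    ∃ lam : ℝ, ∀ A : Set M, A.Finite → ∃ Ψ : M → (Lip0 o →ₗ[ℝ] ℝ),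
      (∀ x y f, |Ψ x f - Ψ y f| ≤ lam * dist x y * ‖f‖) ∧
      (∀ a ∈ A, ∀ f, |Ψ a f - f.toFun a| ≤ ‖f‖) ∧
      ∀ (I : Type) (P : Finset I → Set M), Monotone P → (∀ x, ∃ s, x ∈ P s) → ∀ R : ℝ,
        ∃ s, ∀ x, dist x o ≤ R → ∀ h : Lip0 o, (∀ y ∈ P s, h.toFun y = 0) →
          |Ψ x h| ≤ 1 / 8 * ‖h‖ := by
  obtain ⟨lam, hlam⟩ := hB.consequence
  refine ⟨lam, fun A hA => ?_⟩
  obtain ⟨T, hT, hTA, hTK⟩ := hlam (dF o '' A) (hA.image _)
  refine ⟨fun x => ((T (dF o x)).1 : Lip0 o →ₗ[ℝ] ℝ), fun x y f => ?_, fun a ha f => ?_,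
    fun I P hmono hP R => ?_⟩
  · exact (abs_apply_sub (T (dF o x)) (T (dF o y)) f).trans (mul_le_mul_of_nonneg_right
      (gen_lip T _ _ _ _ hT (norm_dF_sub x y)) (norm_nonneg f))
  · exact (abs_apply_sub (T (dF o a)) (dF o a) f).trans
      (mul_le_of_le_one_left (norm_nonneg f) (hTA _ ⟨a, ha, rfl⟩).le)
  · obtain ⟨C, hC, hCK⟩ := hTK (lam * R)
    obtain ⟨s, hs⟩ := tail_estimate P hmono hP C hC
    exact ⟨s, fun x hx h hh => hs _ (hCK _
      (gen_lip0 T _ (dF o o) _ _ hT ((norm_dF_sub x o).trans hx) dF_base)) h hh⟩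

/-- All finite coloured graphs. -/
abbrev Idx : Type := Σ n : ℕ, (Bool → Equiv.Perm (Fin n)) × (Fin n → Col)

/-- The disjoint union of all finite coloured graphs. -/
abbrev UU : Type := Σ i : Idx, Fin i.1

/-- The moves on the union. -/
def alU (d : Bool) : Equiv.Perm UU := Equiv.sigmaCongrRight fun i => i.2.1 d

/-- The colouring of the union. -/
def cU (x : UU) : Col := x.1.2.2 x.2

theorem dact_alU (δ : Bool × Bool) (i : Idx) (v : Fin i.1) :
    dact alU δ ⟨i, v⟩ = ⟨i, dact i.2.1 δ v⟩ := by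
  obtain ⟨d, b⟩ := δ
  cases b <;> rfl

theorem walk_alU (i : Idx) (l : List (Bool × Bool)) :
    ∀ v : Fin i.1, walk alU ⟨i, v⟩ l = ⟨i, walk i.2.1 v l⟩ := by
  induction l with
  | nil => intro v; rfl
  | cons a l ih => intro v; rw [walk_cons, walk_cons, dact_alU, ih]

theorem exists_new (X₀ : Finset UU) (N : ℕ) : ∃ (Γ : Finset UU) (ℓ : ℕ),
    (∀ δ, ∀ x ∈ Γ, dact alU δ x ∈ Γ) ∧ Γ.Nonempty ∧
      N * (Γ.filter (Bad alU cU X₀ ℓ)).card ≤ Γ.card := by
  obtain ⟨n, ℓ, α, c, hn, hc⟩ := exists_coloring X₀ (fun x l => cU (walk alU x.1 l)) N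
  let i : Idx := ⟨n, α, c⟩
  refine ⟨Finset.univ.map (Function.Embedding.sigmaMk (β := fun i : Idx => Fin i.1) i), ℓ,
    ?_, ⟨⟨i, ⟨0, hn⟩⟩, by simp⟩, ?_⟩
  · intro δ x hx
    obtain ⟨v, -, rfl⟩ := Finset.mem_map.1 hx
    exact Finset.mem_map.2 ⟨dact α δ v, Finset.mem_univ _, (dact_alU δ i v).symm⟩
  · rw [Finset.filter_map, Finset.card_map, Finset.card_map, Finset.card_univ, Fintype.card_fin]
    refine le_trans (Nat.mul_le_mul_left _ (Finset.card_le_card fun v hv => ?_)) hc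
    obtain ⟨x, hx, l, h1, h2, h3⟩ := (Finset.mem_filter.1 hv).2
    refine Finset.mem_filter.2 ⟨Finset.mem_univ _, ⟨x, hx⟩, l, h1, h2, fun j hj => ?_⟩
    have := h3 j hj
    change cU (walk alU ⟨i, v⟩ _) = _ at this
    rw [walk_alU] at this
    exact this

/-- The injectivity radius at level `k`. -/
def rho (k : ℕ) : ℕ := 4096 * (k + 1) ^ 2

/-- The finite group at level `k`. -/
abbrev QQ (k : ℕ) : Type := Equiv.Perm (Ball Gen (rho k))

/-- The homomorphism to the finite group at level `k`. -/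
noncomputable def piQ (k : ℕ) : FreeGroup Gen →* QQ k := (exists_quot Gen (rho k)).choose

theorem piQ_spec (k : ℕ) : ∀ w w' : FreeGroup Gen, w.norm ≤ rho k → w'.norm ≤ rho k →
    piQ k w = piQ k w' → w = w' := (exists_quot Gen (rho k)).choose_spec

/-- The points of the space. -/
abbrev MM : Type := Option (Σ k : ℕ, Option UU × QQ k)

instance : Countable MM := inferInstance

/-- The inclusion of level `k`. -/
def inc (k : ℕ) (z : Option UU × QQ k) : MM := some ⟨k, z⟩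

theorem inc_injective (k : ℕ) : Function.Injective (inc k) := fun a b h => by
  simpa [inc] using h

/-- The radius bound. -/
def RR : MM → ℝ
  | none => 1
  | some p => rho p.1

theorem one_le_RR (x : MM) : 1 ≤ RR x := by
  rcases x with _ | p
  · exact le_rfl
  · have : 1 ≤ rho p.1 := Nat.succ_le_of_lt (by rw [rho]; positivity)
    change (1 : ℝ) ≤ rho p.1
    exact_mod_cast this

/-- The constraints defining the metric. -/
def WW (x y : MM) (w : ℝ) : Prop :=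
  (∃ k δ z, x = inc k (up (mvW alU cU (piQ k) δ z)) ∧ y = inc k (up z) ∧ w = 1) ∨
  (∃ k, ∃ z : UU × QQ k, x = inc k (up z) ∧ y = inc k (none, z.2) ∧ w = 32 * ((k + 1 : ℕ) : ℝ)) ∨
  w = RR x + RR y

theorem WW_one (x y : MM) (w : ℝ) (h : WW x y w) : 1 ≤ w := by
  rcases h with ⟨k, δ, z, -, -, rfl⟩ | ⟨k, z, -, -, rfl⟩ | rfl
  · exact le_rfl
  · have : (0 : ℝ) ≤ k := by positivity
    push_cast; linarith
  · linarith [one_le_RR x, one_le_RR y]

/-- Extension by zero from level `k`. -/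
noncomputable def ext0 (k : ℕ) (f : Option UU × QQ k → ℝ) : MM → ℝ :=
  Function.extend (inc k) f 0

theorem ext0_inc (k : ℕ) (f : Option UU × QQ k → ℝ) (z : Option UU × QQ k) :
    ext0 k f (inc k z) = f z := (inc_injective k).extend_apply _ _ _

theorem ext0_of_not (k : ℕ) (f : Option UU × QQ k → ℝ) (x : MM) (h : ¬ ∃ z, inc k z = x) :
    ext0 k f x = 0 := Function.extend_apply' _ _ _ h

theorem ext0_none (k : ℕ) (f : Option UU × QQ k → ℝ) : ext0 k f none = 0 :=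
  ext0_of_not k f _ (by simp [inc])

theorem ext0_ne (k j : ℕ) (h : j ≠ k) (f : Option UU × QQ k → ℝ) (z : Option UU × QQ j) :
    ext0 k f (inc j z) = 0 :=
  ext0_of_not k f _ (by
    rintro ⟨z', hz⟩
    simp only [inc, Option.some.injEq, Sigma.mk.injEq] at hz
    exact h hz.1.symm)

theorem ext0_constraint (k : ℕ) (f : Option UU × QQ k → ℝ) (L : ℝ) (hL : 0 < L)
    (ha : ∀ δ z, |f (up (mvW alU cU (piQ k) δ z)) - f (up z)| ≤ L)
    (hb : ∀ z : UU × QQ k, |f (up z) - f (none, z.2)| ≤ L * (32 * ((k + 1 : ℕ) : ℝ)))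
    (hc : ∀ z, |f z| ≤ L * rho k) (x y : MM) (w : ℝ) (h : WW x y w) :
    |ext0 k f x - ext0 k f y| ≤ L * w := by
  rcases h with ⟨j, δ, z, rfl, rfl, rfl⟩ | ⟨j, z, rfl, rfl, rfl⟩ | rfl
  · rcases eq_or_ne j k with rfl | hj
    · rw [ext0_inc, ext0_inc, mul_one]; exact ha δ z
    · rw [ext0_ne k j hj, ext0_ne k j hj]; simpa using hL.le
  · rcases eq_or_ne j k with rfl | hj
    · rw [ext0_inc, ext0_inc]; exact hb z
    · rw [ext0_ne k j hj, ext0_ne k j hj, sub_self, abs_zero]; positivity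
  · have key : ∀ x, |ext0 k f x| ≤ L * RR x := by
      intro x
      by_cases hx : ∃ z, inc k z = x
      · obtain ⟨z, rfl⟩ := hx
        rw [ext0_inc]; exact hc z
      · rw [ext0_of_not k f x hx, abs_zero]
        exact mul_nonneg hL.le (zero_le_one.trans (one_le_RR x))
    rw [mul_add]
    exact (abs_sub _ _).trans (add_le_add (key x) (key y))

end Vale.Agent.P090
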