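import Vale.Agent.P090.Basic

/-! Completion of a system of locally defined moves to an action of the free group, by
attaching trees. -/

namespace Vale.Agent.P090

open Classical

variable {X S : Type}

/-- The inverse letter. -/
def linv (σ : S × Bool) : S × Bool := (σ.1, !σ.2)

@[simp] theorem linv_linv (σ : S × Bool) : linv (linv σ) = σ := by simp [linv]

theorem linv_injective : Function.Injective (linv (S := S)) := fun a b h => by
  rw [← linv_linv a, h, linv_linv]

/-- A system of locally defined invertible moves. -/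
structure PAct (X S : Type) where
  avail : X → S × Bool → Prop
  mv : X → S × Bool → X
  avail_inv : ∀ x σ, avail x σ → avail (mv x σ) (linv σ)
  mv_inv : ∀ x σ, avail x σ → mv (mv x σ) (linv σ) = x

namespace PAct

variable (A : PAct X S)

/-- Normal forms. -/
def Valid (x : X) : List (S × Bool) → Prop
  | [] => True
  | [τ] => ¬ A.avail x τ
  | σ :: τ :: l => σ ≠ linv τ ∧ Valid x (τ :: l)

/-- The action of a letter on normal forms. -/
noncomputable def push (σ : S × Bool) : X × List (S × Bool) → X × List (S × Bool)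
  | (x, []) => if A.avail x σ then (A.mv x σ, []) else (x, [σ])
  | (x, τ :: l) => if σ = linv τ then (x, l) else (x, σ :: τ :: l)

theorem valid_push (σ : S × Bool) (p : X × List (S × Bool)) (h : A.Valid p.1 p.2) :
    A.Valid (A.push σ p).1 (A.push σ p).2 := by
  obtain ⟨x, l⟩ := p
  rcases l with _ | ⟨τ, l⟩
  · by_cases h' : A.avail x σ <;> simp [push, h', Valid]
  · by_cases h' : σ = linv τ
    · simp only [push, if_pos h']
      rcases l with _ | ⟨τ', l⟩
      · trivial
      · exact h.2
    · simp only [push, if_neg h']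
      exact ⟨h', h⟩

theorem push_push (σ : S × Bool) (p : X × List (S × Bool)) (h : A.Valid p.1 p.2) :
    A.push (linv σ) (A.push σ p) = p := by
  obtain ⟨x, l⟩ := p
  rcases l with _ | ⟨τ, l⟩
  · by_cases h' : A.avail x σ
    · simp [push, h', A.avail_inv x σ h', A.mv_inv x σ h']
    · simp [push, h']
  · by_cases h' : σ = linv τ
    · subst h'
      simp only [push, if_true, linv_linv]
      rcases l with _ | ⟨τ', l⟩
      · have h2 : ¬ A.avail x τ := h
        simp [h2]
      · have h2 : τ ≠ linv τ' := h.1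
        simp [h2]
    · simp [push, h']

/-- The completed space. -/
def Y : Type := {p : X × List (S × Bool) // A.Valid p.1 p.2}

/-- The action of a letter on the completed space. -/
noncomputable def step (σ : S × Bool) (y : A.Y) : A.Y := ⟨A.push σ y.1, A.valid_push σ y.1 y.2⟩

theorem step_step (σ : S × Bool) (y : A.Y) : A.step (linv σ) (A.step σ y) = y :=
  Subtype.ext (A.push_push σ y.1 y.2)

/-- The permutation given by a generator. -/
noncomputable def gen (s : S) : Equiv.Perm A.Y where
  toFun := A.step (s, true)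
  invFun := A.step (s, false)
  left_inv y := A.step_step (s, true) y
  right_inv y := A.step_step (s, false) y

/-- The action of the free group on the completed space. -/
noncomputable def act : FreeGroup S →* Equiv.Perm A.Y := FreeGroup.lift A.gen

theorem act_mk (σ : S × Bool) (y : A.Y) : A.act (FreeGroup.mk [σ]) y = A.step σ y := by
  obtain ⟨s, b⟩ := σ
  cases b
  · have e1 : FreeGroup.mk [(s, false)] = (FreeGroup.of s)⁻¹ := rfl
    rw [e1, map_inv, act, FreeGroup.lift_apply_of]
    rfl
  · have e1 : FreeGroup.mk [(s, true)] = FreeGroup.of s := rfl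
    rw [e1, act, FreeGroup.lift_apply_of]
    rfl

/-- The embedding of the base. -/
def emb (x : X) : A.Y := ⟨(x, []), trivial⟩

theorem step_emb (x : X) (σ : S × Bool) (h : A.avail x σ) :
    A.step σ (A.emb x) = A.emb (A.mv x σ) := by
  apply Subtype.ext
  simp [step, emb, push, h]

/-- Height of a point in the attached trees. -/
def ht (y : A.Y) : ℕ := y.1.2.length

theorem ht_unique (y : A.Y) (h : 0 < A.ht y) (σ σ' : S × Bool)
    (h1 : A.ht (A.step σ y) ≤ A.ht y) (h2 : A.ht (A.step σ' y) ≤ A.ht y) : σ = σ' := by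
  obtain ⟨⟨x, l⟩, hv⟩ := y
  rcases l with _ | ⟨τ, l⟩
  · simp [ht] at h
  · have key : ∀ σ, A.ht (A.step σ ⟨(x, τ :: l), hv⟩) ≤ A.ht ⟨(x, τ :: l), hv⟩ → σ = linv τ := by
      intro σ hσ
      by_contra hne
      simp [ht, step, push, hne] at hσ
    rw [key σ h1, key σ' h2]

theorem ht_zero (y : A.Y) (h : A.ht y = 0) (σ : S × Bool) (h1 : A.ht (A.step σ y) = 0) :
    A.avail y.1.1 σ ∧ (A.step σ y).1.1 = A.mv y.1.1 σ := by
  obtain ⟨⟨x, l⟩, hv⟩ := y
  rcases l with _ | ⟨τ, l⟩
  · by_cases h' : A.avail x σ
    · simp [step, push, h']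
    · simp [ht, step, push, h'] at h1
  · simp [ht] at h

theorem step_base (X₀ : Set X) (hX : ∀ x ∈ X₀, ∀ σ, A.avail x σ → A.mv x σ ∈ X₀)
    (σ : S × Bool) (y : A.Y) (hy : y.1.1 ∈ X₀) : (A.step σ y).1.1 ∈ X₀ := by
  obtain ⟨⟨x, l⟩, hv⟩ := y
  rcases l with _ | ⟨τ, l⟩
  · by_cases h' : A.avail x σ
    · simpa [step, push, h'] using hX x hy σ h'
    · simpa [step, push, h'] using hy
  · by_cases h' : σ = linv τ
    · simpa [step, push, h'] using hy
    · simpa [step, push, h'] using hy

theorem act_base (X₀ : Set X) (hX : ∀ x ∈ X₀, ∀ σ, A.avail x σ → A.mv x σ ∈ X₀)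
    (w : FreeGroup S) (y : A.Y) (hy : y.1.1 ∈ X₀) : (A.act w y).1.1 ∈ X₀ := by
  obtain ⟨l, rfl⟩ := Quot.exists_rep w
  change (A.act (FreeGroup.mk l) y).1.1 ∈ X₀
  induction l with
  | nil => rw [← FreeGroup.one_eq_mk]; simpa using hy
  | cons a l ih =>
    have hmul : FreeGroup.mk (a :: l) = FreeGroup.mk [a] * FreeGroup.mk l := by
      rw [FreeGroup.mul_mk]; rfl
    rw [hmul, map_mul, Equiv.Perm.mul_apply, act_mk]
    exact A.step_base X₀ hX a _ ih

end PAct

end Vale.Agent.P090
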